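import Vale.Agent.P002.H85.Fam.DefsF

/-!
# Families of points with dense points of bounded denominators over one number field: basic facts
-/

namespace Vale.Agent.P002.H85F

open MvPolynomial

variable {E E' : Type}

theorem Bdd.mono {L L' : IntermediateField ℚ ℂ} (h : L ≤ L') {x : E → ℂ} (hx : Bdd L x) :
    Bdd L' x := ⟨fun e => h (hx.1 e), hx.2⟩

theorem ZDense.mono {S S' T : Set (E → ℂ)} (h : S ⊆ S') (hS : ZDense S T) : ZDense S' T :=
  fun f hf => hS f fun x hx => hf x (h hx)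

theorem Good.mono_field {T : Set (E → ℂ)} {L L' : IntermediateField ℚ ℂ} (h : L ≤ L')
    (hT : ZDense {x ∈ T | Bdd L x} T) : ZDense {x ∈ T | Bdd L' x} T :=
  hT.mono fun _ hx => ⟨hx.1, hx.2.mono h⟩

theorem ev_eq (x : E → ℂ) (f : MvPolynomial E ℤ) :
    ev x f = eval x (map (Int.castRingHom ℂ) f) := by
  rw [ev, eval_map]
  rfl

theorem ev_mem {L : IntermediateField ℚ ℂ} {x : E → ℂ} (hx : ∀ e, x e ∈ L)
    (f : MvPolynomial E ℤ) : ev x f ∈ L := by
  rw [ev, aeval_def, eval₂_eq]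
  refine sum_mem fun m _ => mul_mem ?_ (prod_mem fun q _ => pow_mem (hx q) _)
  rw [eq_intCast]
  exact intCast_mem _ _

theorem ev_integral {x : E → ℂ} {N : ℕ} (hN : ∀ e, IsIntegral ℤ ((N : ℂ) * x e))
    (f : MvPolynomial E ℤ) {D : ℕ} (hD : f.totalDegree ≤ D) :
    IsIntegral ℤ ((N : ℂ) ^ D * ev x f) := by
  rw [ev, aeval_def, eval₂_eq, Finset.mul_sum]
  refine IsIntegral.sum _ fun m hm => ?_
  have h1 : m.sum (fun _ e => e) ≤ D := (le_totalDegree hm).trans hD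
  obtain ⟨k, hk⟩ := Nat.exists_eq_add_of_le h1
  have h2 : (N : ℂ) ^ D * ((algebraMap ℤ ℂ) (coeff m f) * ∏ i ∈ m.support, x i ^ m i) =
      (algebraMap ℤ ℂ) (coeff m f) * ((N : ℂ) ^ k * ∏ i ∈ m.support, ((N : ℂ) * x i) ^ m i) := by
    simp_rw [mul_pow]
    rw [Finset.prod_mul_distrib, Finset.prod_pow_eq_pow_sum, hk, pow_add]
    have h3 : m.sum (fun _ e => e) = ∑ i ∈ m.support, m i := rfl
    rw [h3]
    ring
  rw [h2]
  refine (isIntegral_algebraMap).mul ((IsIntegral.pow ?_ _).mul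
    (IsIntegral.prod _ fun i _ => (hN i).pow _))
  have h4 : (N : ℂ) = algebraMap ℤ ℂ (N : ℤ) := by simp
  rw [h4]
  exact isIntegral_algebraMap

/-- images under polynomial maps over `ℤ` of bounded degree -/
theorem Good.poly {T : Set (E → ℂ)} (hT : Good T) (Φ : E' → MvPolynomial E ℤ) (D : ℕ)
    (hD : ∀ e, (Φ e).totalDegree ≤ D) : Good ((fun x e => ev x (Φ e)) '' T) := by
  obtain ⟨L, hL, h⟩ := hT
  refine ⟨L, hL, fun f hf => ?_⟩
  have h1 : ∀ x : E → ℂ, eval (fun e => ev x (Φ e)) f =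
      eval x (bind₁ (fun e => map (Int.castRingHom ℂ) (Φ e)) f) := by
    intro x
    have h2 : eval x (bind₁ (fun e => map (Int.castRingHom ℂ) (Φ e)) f) =
        aeval x (bind₁ (fun e => map (Int.castRingHom ℂ) (Φ e)) f) := rfl
    rw [h2, aeval_bind₁]
    have h3 : (fun e => ev x (Φ e)) =
        fun i => (aeval x) ((map (Int.castRingHom ℂ)) (Φ i)) := by
      funext e
      rw [ev_eq]
      rfl
    rw [h3]
    rfl
  rintro _ ⟨x, hx, rfl⟩
  simp only
  rw [h1]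
  refine h _ (fun y hy => ?_) x hx
  rw [← h1]
  refine hf _ ⟨⟨y, hy.1, rfl⟩, fun e => ev_mem hy.2.1 _, ?_⟩
  obtain ⟨N, hN, hNx⟩ := hy.2.2
  refine ⟨N ^ D, pow_ne_zero _ hN, fun e => ?_⟩
  rw [Nat.cast_pow]
  exact ev_integral hNx _ (hD e)

theorem Good.single {L : IntermediateField ℚ ℂ} [FiniteDimensional ℚ L] {x : E → ℂ}
    (hx : Bdd L x) : Good {x} :=
  ⟨L, inferInstance, fun f hf y hy => hf y ⟨hy, by rw [Set.mem_singleton_iff.1 hy]; exact hx⟩⟩

theorem Good.clos {T T' : Set (E → ℂ)} (hT : Good T) (h : T ⊆ T') (h' : ZDense T T') :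
    Good T' := by
  obtain ⟨L, hL, hd⟩ := hT
  exact ⟨L, hL, fun f hf => h' f (hd f fun x hx => hf x ⟨h hx.1, hx.2⟩)⟩

theorem Good.opn {T T' : Set (E → ℂ)} (hT : Good T) (hTT : T' ⊆ T)
    (h : ∀ x ∈ T', ∃ f : MvPolynomial E ℂ, eval x f ≠ 0 ∧ ∀ y ∈ T, eval y f ≠ 0 → y ∈ T') :
    Good T' := by
  obtain ⟨L, hL, hd⟩ := hT
  refine ⟨L, hL, fun f hf x hx => ?_⟩
  obtain ⟨g, hgx, hg⟩ := h x hx
  have h1 := hd (f * g) (fun y hy => by
    rw [map_mul]
    by_cases h2 : eval y g = 0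
    · rw [h2, mul_zero]
    · rw [hf y ⟨hg y hy.1 h2, hy.2⟩, zero_mul]) x (hTT hx)
  rw [map_mul] at h1
  exact (mul_eq_zero.1 h1).resolve_right hgx

theorem Good.union {T T' : Set (E → ℂ)} (hT : Good T) (hT' : Good T') : Good (T ∪ T') := by
  obtain ⟨L, hL, hd⟩ := hT
  obtain ⟨L', hL', hd'⟩ := hT'
  refine ⟨L ⊔ L', IntermediateField.finiteDimensional_sup _ _, fun f hf x hx => ?_⟩
  rcases hx with hx | hx
  · exact (Good.mono_field le_sup_left hd) f (fun y hy => hf y ⟨Or.inl hy.1, hy.2⟩) x hx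
  · exact (Good.mono_field le_sup_right hd') f (fun y hy => hf y ⟨Or.inr hy.1, hy.2⟩) x hx

/-- products -/
theorem Good.prod {T : Set (E → ℂ)} {T' : Set (E' → ℂ)} (hT : Good T) (hT' : Good T') :
    Good {z : E ⊕ E' → ℂ | z ∘ Sum.inl ∈ T ∧ z ∘ Sum.inr ∈ T'} := by
  obtain ⟨L, hL, hd⟩ := hT
  obtain ⟨L', hL', hd'⟩ := hT'
  refine ⟨L ⊔ L', IntermediateField.finiteDimensional_sup _ _, fun f hf => ?_⟩
  -- partial evaluation
  have hl : ∀ y : E' → ℂ, ∃ g : MvPolynomial E ℂ, ∀ x, eval x g = eval (Sum.elim x y) f := by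
    intro y
    refine ⟨bind₁ (Sum.elim X fun e => C (y e)) f, fun x => ?_⟩
    have h2 : eval x (bind₁ (Sum.elim X fun e => C (y e)) f) =
        aeval x (bind₁ (Sum.elim X fun e => C (y e)) f) := rfl
    rw [h2, aeval_bind₁]
    have h3 : (fun i => (aeval x) (Sum.elim X (fun e => C (y e)) i : MvPolynomial E ℂ)) =
        Sum.elim x y := by
      funext i
      rcases i with i | i
      · simp
      · simp
    rw [h3]
    rfl
  have hr : ∀ x : E → ℂ, ∃ g : MvPolynomial E' ℂ, ∀ y, eval y g = eval (Sum.elim x y) f := by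
    intro x
    refine ⟨bind₁ (Sum.elim (fun e => C (x e)) X) f, fun y => ?_⟩
    have h2 : eval y (bind₁ (Sum.elim (fun e => C (x e)) X) f) =
        aeval y (bind₁ (Sum.elim (fun e => C (x e)) X) f) := rfl
    rw [h2, aeval_bind₁]
    have h3 : (fun i => (aeval y) (Sum.elim (fun e => C (x e)) X i : MvPolynomial E' ℂ)) =
        Sum.elim x y := by
      funext i
      rcases i with i | i
      · simp
      · simp
    rw [h3]
    rfl
  have key : ∀ x ∈ T, ∀ y ∈ T', eval (Sum.elim x y) f = 0 := by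
    intro x hx y hy
    obtain ⟨g, hg⟩ := hl y
    rw [← hg]
    refine (Good.mono_field (le_sup_left : L ≤ L ⊔ L') hd) g (fun x' hx' => ?_) x hx
    rw [hg]
    obtain ⟨g', hg'⟩ := hr x'
    rw [← hg']
    refine (Good.mono_field (le_sup_right : L' ≤ L ⊔ L') hd') g' (fun y' hy' => ?_) y hy
    rw [hg']
    refine hf _ ⟨⟨?_, ?_⟩, ?_, ?_⟩
    · rw [Sum.elim_comp_inl]
      exact hx'.1
    · rw [Sum.elim_comp_inr]
      exact hy'.1
    · rintro (e | e)
      · exact hx'.2.1 e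
      · exact hy'.2.1 e
    · obtain ⟨N, hN, hNx⟩ := hx'.2.2
      obtain ⟨N', hN', hNy⟩ := hy'.2.2
      have h4 : ∀ n : ℕ, IsIntegral ℤ (n : ℂ) := fun n => by
        have h4 : (n : ℂ) = algebraMap ℤ ℂ (n : ℤ) := by simp
        rw [h4]
        exact isIntegral_algebraMap
      refine ⟨N * N', mul_ne_zero hN hN', ?_⟩
      rintro (e | e)
      · rw [Sum.elim_inl, Nat.cast_mul, mul_comm (N : ℂ), mul_assoc]
        exact (h4 N').mul (hNx e)
      · rw [Sum.elim_inr, Nat.cast_mul, mul_assoc]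
        exact (h4 N).mul (hNy e)
  intro z hz
  have h5 := key _ hz.1 _ hz.2
  rw [Sum.elim_comp_inl_inr] at h5
  exact h5

end Vale.Agent.P002.H85F
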