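import Vale.Agent.P002.H85.Fam.Basic
import Vale.Agent.P002.H306.Bez

/-!
# Characters of finitely generated groups
-/

namespace Vale.Agent.P002.H85F

open MvPolynomial

/-- Dedekind independence of characters, transferred to arbitrary functions. -/
theorem dedekind {X B : Type} {κ : Type*} [Monoid X] (φ : B → X →* ℂ)
    (hφ : Function.Injective φ) (s : Finset κ) (c : κ → ℂ) (b : κ → B)
    (h : ∀ χ : X, ∑ k ∈ s, c k * φ (b k) χ = 0) (Ψ : B → ℂ) : ∑ k ∈ s, c k * Ψ (b k) = 0 := by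
  classical
  have hli := (linearIndependent_monoidHom X ℂ).comp φ hφ
  rw [linearIndependent_iff'] at hli
  have h1 := hli (s.image b) (fun b₀ => ∑ k ∈ s with b k = b₀, c k) (by
    funext χ
    rw [Finset.sum_apply, Pi.zero_apply, ← h χ,
      ← Finset.sum_fiberwise_of_maps_to (s := s) (t := s.image b) (g := b)
        (fun k hk => Finset.mem_image_of_mem b hk)]
    refine Finset.sum_congr rfl fun b₀ _ => ?_
    rw [Pi.smul_apply, smul_eq_mul, Finset.sum_mul]
    refine Finset.sum_congr rfl fun k hk => ?_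
    rw [Function.comp_apply, (Finset.mem_filter.1 hk).2])
  rw [← Finset.sum_fiberwise_of_maps_to (s := s) (t := s.image b) (g := b)
        (fun k hk => Finset.mem_image_of_mem b hk)]
  refine Finset.sum_eq_zero fun b₀ hb₀ => ?_
  have h2 := h1 b₀ hb₀
  have h3 : ∑ k ∈ s with b k = b₀, c k * Ψ (b k) = (∑ k ∈ s with b k = b₀, c k) * Ψ b₀ := by
    rw [Finset.sum_mul]
    refine Finset.sum_congr rfl fun k hk => ?_
    rw [(Finset.mem_filter.1 hk).2]
  rw [h3, h2, zero_mul]

/-- characters with integral values in `L` -/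
def IC (A : Type) [Group A] (L : IntermediateField ℚ ℂ) : Submonoid (A →* ℂˣ) where
  carrier := {ψ | ∀ a, ((ψ a : ℂˣ) : ℂ) ∈ L ∧ IsIntegral ℤ ((ψ a : ℂˣ) : ℂ)}
  one_mem' a := by
    rw [MonoidHom.one_apply, Units.val_one]
    exact ⟨one_mem _, isIntegral_one⟩
  mul_mem' {ψ ψ'} h h' a := by
    rw [MonoidHom.mul_apply, Units.val_mul]
    exact ⟨mul_mem (h a).1 (h' a).1, (h a).2.mul (h' a).2⟩

/-- an integral unit of infinite order -/
theorem exists_unit : ∃ u : ℂˣ, IsIntegral ℤ (u : ℂ) ∧ IsIntegral ℤ ((u⁻¹ : ℂˣ) : ℂ) ∧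
    ∀ n : ℤ, u ^ n = 1 → n = 0 := by
  have h2 : IsIntegral ℤ ((√2 : ℝ) : ℂ) := by
    refine IsIntegral.of_pow (n := 2) (by norm_num) ?_
    rw [← Complex.ofReal_pow, Real.sq_sqrt (by norm_num)]
    have h4 : ((2 : ℝ) : ℂ) = algebraMap ℤ ℂ 2 := by simp
    rw [h4]
    exact isIntegral_algebraMap
  have h3 : ((1 : ℝ) + √2) * (√2 - 1) = 1 := by
    have h4 : √2 * √2 = 2 := Real.mul_self_sqrt (by norm_num)
    ring_nf
    rw [Real.sq_sqrt (by norm_num)]
    norm_num
  have h4 : (((1 : ℝ) + √2 : ℝ) : ℂ) * ((√2 - 1 : ℝ) : ℂ) = 1 := by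
    rw [← Complex.ofReal_mul, h3, Complex.ofReal_one]
  refine ⟨⟨((1 + √2 : ℝ) : ℂ), ((√2 - 1 : ℝ) : ℂ), h4, by rw [mul_comm]; exact h4⟩, ?_, ?_, ?_⟩
  · change IsIntegral ℤ ((1 + √2 : ℝ) : ℂ)
    rw [Complex.ofReal_add, Complex.ofReal_one]
    exact isIntegral_one.add h2
  · change IsIntegral ℤ ((√2 - 1 : ℝ) : ℂ)
    rw [Complex.ofReal_sub, Complex.ofReal_one]
    exact h2.sub isIntegral_one
  · intro n hn
    have h5 := congrArg (fun u : ℂˣ => ((u : ℂ))) hn
    simp only [Units.val_zpow_eq_zpow_val, Units.val_one] at h5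
    rw [← Complex.ofReal_zpow, ← Complex.ofReal_one, Complex.ofReal_inj] at h5
    have h6 : (1 : ℝ) < 1 + √2 := by
      have := Real.sqrt_pos.2 (show (0 : ℝ) < 2 by norm_num)
      linarith
    exact (zpow_eq_one_iff_right₀ (by linarith) h6.ne').1 h5

theorem isIntegral_zpow {u : ℂˣ} (h : IsIntegral ℤ (u : ℂ)) (h' : IsIntegral ℤ ((u⁻¹ : ℂˣ) : ℂ))
    (n : ℤ) : IsIntegral ℤ ((u ^ n : ℂˣ) : ℂ) := by
  obtain ⟨m, rfl | rfl⟩ := n.eq_nat_or_neg
  · rw [zpow_natCast, Units.val_pow_eq_pow_val]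
    exact h.pow _
  · rw [zpow_neg, zpow_natCast, ← inv_pow, Units.val_pow_eq_pow_val]
    exact h'.pow _

/-- The integral characters over one number field separate the points of a finitely generated
abelian group. -/
theorem exists_sep_field (A : Type) [CommGroup A] [Group.FG A] :
    ∃ L : IntermediateField ℚ ℂ, FiniteDimensional ℚ L ∧
      ∀ a : A, (∀ ψ ∈ IC A L, ψ a = 1) → a = 1 := by
  classical
  obtain ⟨ι, j, _, _, p, hp, e, ⟨f⟩⟩ := CommGroup.equiv_free_prod_prod_multiplicative_zmod A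
  have : ∀ i, NeZero (p i ^ e i) := fun i => ⟨pow_ne_zero _ (hp i).ne_zero⟩
  obtain ⟨u, hu, hu', hu1⟩ := exists_unit
  obtain ⟨S, hS⟩ : ∃ S : Set ℂ, S = {(u : ℂ)} ∪ ⋃ i, Set.range (ZMod.stdAddChar (N := p i ^ e i)) :=
    ⟨_, rfl⟩
  have hchar : ∀ i z, IsIntegral ℤ (ZMod.stdAddChar (N := p i ^ e i) z) := by
    intro i z
    refine IsIntegral.of_pow (n := p i ^ e i) (Nat.pos_of_ne_zero (NeZero.ne _)) ?_
    rw [← AddChar.map_nsmul_eq_pow, nsmul_eq_mul, ZMod.natCast_self, zero_mul,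
      AddChar.map_zero_eq_one]
    exact isIntegral_one
  have hSf : S.Finite := by
    rw [hS]
    exact (Set.finite_singleton _).union (Set.finite_iUnion fun i => Set.finite_range _)
  have hSi : ∀ z ∈ S, IsIntegral ℤ z := by
    intro z hz
    rw [hS] at hz
    rcases hz with hz | hz
    · rw [Set.mem_singleton_iff.1 hz]
      exact hu
    · obtain ⟨i, x, rfl⟩ := Set.mem_iUnion.1 hz
      exact hchar i x
  refine ⟨IntermediateField.adjoin ℚ S, Vale.Agent.P002.H306.exists_nf _ hSf fun z hz =>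
    (hSi z hz).tower_top, fun a ha => ?_⟩
  have huS : (u : ℂ) ∈ IntermediateField.adjoin ℚ S := by
    refine IntermediateField.subset_adjoin _ _ ?_
    rw [hS]
    exact Or.inl rfl
  apply f.injective
  rw [map_one]
  refine Prod.ext (funext fun k => ?_) (funext fun i => ?_)
  · have h1 := ha (((zpowersHom ℂˣ u).comp (Pi.evalMonoidHom _ k)).comp
      ((MonoidHom.fst _ _).comp f.toMonoidHom)) (fun a => ?_)
    · have h2 : u ^ (Multiplicative.toAdd ((f a).1 k)) = 1 := h1
      have h3 := hu1 _ h2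
      exact Multiplicative.toAdd.injective h3
    · change (((u ^ (Multiplicative.toAdd ((f a).1 k)) : ℂˣ)) : ℂ) ∈ _ ∧
        IsIntegral ℤ (((u ^ (Multiplicative.toAdd ((f a).1 k)) : ℂˣ)) : ℂ)
      refine ⟨?_, isIntegral_zpow hu hu' _⟩
      rw [Units.val_zpow_eq_zpow_val]
      exact zpow_mem huS _
  · have h1 := ha ((MonoidHom.toHomUnits
      ((ZMod.stdAddChar (N := p i ^ e i)).toMonoidHom.comp (Pi.evalMonoidHom _ i))).comp
      ((MonoidHom.snd _ _).comp f.toMonoidHom)) (fun a => ?_)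
    · have h2 := congrArg (fun u : ℂˣ => (u : ℂ)) h1
      have h3 : ZMod.stdAddChar (N := p i ^ e i) (Multiplicative.toAdd ((f a).2 i)) =
          ZMod.stdAddChar (N := p i ^ e i) 0 := by
        rw [AddChar.map_zero_eq_one]
        exact h2
      have h4 := ZMod.injective_stdAddChar h3
      exact Multiplicative.toAdd.injective h4
    · change ZMod.stdAddChar (N := p i ^ e i) (Multiplicative.toAdd ((f a).2 i)) ∈ _ ∧
        IsIntegral ℤ (ZMod.stdAddChar (N := p i ^ e i) (Multiplicative.toAdd ((f a).2 i)))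
      refine ⟨IntermediateField.subset_adjoin _ _ ?_, hchar _ _⟩
      rw [hS]
      exact Or.inr (Set.mem_iUnion.2 ⟨i, _, rfl⟩)

theorem fg_ab (G : Type) [Group G] [Group.FG G] : Group.FG (Abelianization G) :=
  Group.fg_of_surjective (f := Abelianization.of) (QuotientGroup.mk'_surjective _)

/-- the monomials in the values of a character -/
theorem eval_char {G : Type} [Group G] (χ : Abelianization G →* ℂˣ) (m : G →₀ ℕ) :
    ∏ g ∈ m.support, ((χ (Abelianization.of g) : ℂˣ) : ℂ) ^ m g =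
      ((χ (∏ g ∈ m.support, Abelianization.of g ^ m g) : ℂˣ) : ℂ) := by
  rw [map_prod, Units.coe_prod]
  refine Finset.prod_congr rfl fun g _ => ?_
  rw [map_pow, Units.val_pow_eq_pow_val]

theorem Good.chars (G : Type) [Group G] [Group.FG G] : Good (chars G) := by
  have := fg_ab G
  obtain ⟨L, hL, hsep⟩ := exists_sep_field (Abelianization G)
  refine ⟨L, hL, fun f hf => ?_⟩
  rintro x ⟨χ, hχ⟩
  have key : ∀ χ : Abelianization G →* ℂˣ,
      eval (fun g => ((χ (Abelianization.of g) : ℂˣ) : ℂ)) f =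
      ∑ m ∈ f.support, coeff m f * ((χ (∏ g ∈ m.support, Abelianization.of g ^ m g) : ℂˣ) : ℂ) := by
    intro χ
    rw [eval_eq]
    exact Finset.sum_congr rfl fun m _ => by rw [eval_char]
  have hx : x = fun g => (((Abelianization.lift χ) (Abelianization.of g) : ℂˣ) : ℂ) := by
    funext g
    rw [Abelianization.lift_apply_of, hχ]
  rw [hx, key]
  refine dedekind (X := IC (Abelianization G) L) (B := Abelianization G)
    (fun b => ((Units.coeHom ℂ).comp (MonoidHom.eval b)).comp (Submonoid.subtype _)) ?_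
    f.support (fun m => coeff m f) (fun m => ∏ g ∈ m.support, Abelianization.of g ^ m g) ?_
    (fun b => (((Abelianization.lift χ) b : ℂˣ) : ℂ))
  · intro b b' hbb
    have h1 : b * b'⁻¹ = 1 := by
      refine hsep _ fun ψ hψ => ?_
      have h2 := DFunLike.congr_fun hbb (⟨ψ, hψ⟩ : IC (Abelianization G) L)
      have h3 : ((ψ b : ℂˣ) : ℂ) = ((ψ b' : ℂˣ) : ℂ) := h2
      rw [map_mul, map_inv, Units.ext h3, mul_inv_cancel]
    exact mul_inv_eq_one.1 h1
  · rintro ⟨ψ, hψ⟩
    have h1 := hf (fun g => ((ψ (Abelianization.of g) : ℂˣ) : ℂ))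
      ⟨⟨ψ.comp Abelianization.of, fun _ => rfl⟩, fun g => (hψ _).1, 1, one_ne_zero, fun g => by
        rw [Nat.cast_one, one_mul]
        exact (hψ _).2⟩
    rw [key] at h1
    exact h1

end Vale.Agent.P002.H85F
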