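import Vale.Agent.P002.H2.DefsM
import Vale.Agent.P002.H252.DefsC

/-!
# Families of points with dense points of bounded denominators over one number field: definitions
-/

namespace Vale.Agent.P002.H85F

open Matrix Module Vale.Agent.P002R.Orb Vale.Agent.P002.H326J Vale.Agent.P002.H2

/-- The coordinates of `x` lie in `L` and have a common denominator. -/
def Bdd {E : Type} (L : IntermediateField ℚ ℂ) (x : E → ℂ) : Prop :=
  (∀ e, x e ∈ L) ∧ ∃ N : ℕ, N ≠ 0 ∧ ∀ e, IsIntegral ℤ ((N : ℂ) * x e)

/-- `S` is Zariski dense in `T`. -/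
def ZDense {E : Type} (S T : Set (E → ℂ)) : Prop :=
  ∀ f : MvPolynomial E ℂ, (∀ x ∈ S, MvPolynomial.eval x f = 0) →
    ∀ x ∈ T, MvPolynomial.eval x f = 0

/-- The points of `T` over some number field, with bounded denominators, are Zariski dense. -/
def Good {E : Type} (T : Set (E → ℂ)) : Prop :=
  ∃ L : IntermediateField ℚ ℂ, FiniteDimensional ℚ L ∧ ZDense {x ∈ T | Bdd L x} T

/-- the value of an integral polynomial -/
noncomputable def ev {E : Type} (x : E → ℂ) (f : MvPolynomial E ℤ) : ℂ := MvPolynomial.aeval x f

/-- Data for a subquotient construction over `ℤ`: linear forms `A k` and vectors `B k` in `m`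
coordinates and operators `P g`, depending polynomially on the point `x`; the degrees of the entries
of the `P g` are bounded. -/
structure SubData (E G : Type) where
  /-- the number of coordinates -/
  m : ℕ
  /-- the index set of the linear forms -/
  κ : Type
  /-- the index set of the vectors -/
  c : Type
  /-- the linear forms -/
  A : κ → Fin m → MvPolynomial E ℤ
  /-- the vectors -/
  B : c → Fin m → MvPolynomial E ℤ
  /-- the operators -/
  P : G → Fin m → Fin m → MvPolynomial E ℤ
  /-- the degree -/
  D : ℕ
  hD : ∀ g i j, (P g i j).totalDegree ≤ D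

section

variable {E G : Type}

/-- the common kernel of the forms `A k` at `x` -/
noncomputable def SubData.ker (S : SubData E G) (x : E → ℂ) : Submodule ℂ (Fin S.m → ℂ) :=
  ⨅ k, LinearMap.ker (∑ i, ev x (S.A k i) • LinearMap.proj (R := ℂ) (φ := fun _ => ℂ) i)

/-- the span of the vectors `B k` at `x` -/
noncomputable def SubData.im (S : SubData E G) (x : E → ℂ) : Submodule ℂ (Fin S.m → ℂ) :=
  Submodule.span ℂ (Set.range fun k i => ev x (S.B k i))

/-- the operator `P g` at `x` -/
noncomputable def SubData.act (S : SubData E G) (x : E → ℂ) (g : G) :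
    Matrix (Fin S.m) (Fin S.m) ℂ := Matrix.of fun i j => ev x (S.P g i j)

/-- At `x` the operators act on the subquotient `ker / im`. -/
def SubData.Valid (S : SubData E G) (x : E → ℂ) : Prop :=
  S.im x ≤ S.ker x ∧ ∀ g, (∀ v ∈ S.ker x, S.act x g *ᵥ v ∈ S.ker x) ∧
    ∀ v ∈ S.im x, S.act x g *ᵥ v ∈ S.im x

/-- At `x` the dimension of `ker` is minimal on `T` and that of `im` is maximal on `T`. -/
def SubData.Gen (S : SubData E G) (T : Set (E → ℂ)) (x : E → ℂ) : Prop :=
  ∀ y ∈ T, finrank ℂ (S.ker x) ≤ finrank ℂ (S.ker y) ∧ finrank ℂ (S.im y) ≤ finrank ℂ (S.im x)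

/-- the tuple of matrices with the coordinates `z` -/
def mt {d : ℕ} (z : G × Fin d × Fin d → ℂ) (g : G) : Matrix (Fin d) (Fin d) ℂ :=
  Matrix.of fun i j => z (g, i, j)

/-- The tuples of `d × d` matrices which describe, in some basis, the action of the operators on
`ker / im` at the points of `T` where the dimensions are generic. -/
def SubData.quot (S : SubData E G) (T : Set (E → ℂ)) (d : ℕ) : Set (G × Fin d × Fin d → ℂ) :=
  {z | ∃ x ∈ T, S.Gen T x ∧ ∃ π : (Fin S.m → ℂ) →ₗ[ℂ] (Fin d → ℂ),
    (∀ u, ∃ v ∈ S.ker x, π v = u) ∧ (∀ v ∈ S.ker x, π v = 0 ↔ v ∈ S.im x) ∧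
    ∀ g, ∀ v ∈ S.ker x, π (S.act x g *ᵥ v) = mt z g *ᵥ π v}

end

/-- the set of all characters -/
def chars (G : Type) [Group G] : Set (G → ℂ) := {x | ∃ χ : G →* ℂˣ, ∀ g, x g = χ g}

/-- The pairs of a point of `T` and an `n`-th root of the character `u` at this point. -/
def kummer {E G : Type} [Group G] (T : Set (E → ℂ)) (u : G → MvPolynomial E ℤ) (n : ℕ) :
    Set (E ⊕ G → ℂ) :=
  {z | z ∘ Sum.inl ∈ T ∧ ∃ χ : G →* ℂˣ, ∀ g, z (Sum.inr g) = χ g ∧
    ((χ g : ℂˣ) : ℂ) ^ n = ev (z ∘ Sum.inl) (u g)}

/-- The point whose coordinates are the entries of the matrices of all words. -/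
def pt {ι : Type} {r : ℕ} (X : ι → SpecialLinearGroup (Fin r) ℂ) :
    FreeGroup ι × Fin r × Fin r → ℂ :=
  fun e => (FreeGroup.lift X e.1).1 e.2.1 e.2.2

/-- The families (sets of complex points, with coordinates indexed by any set) which can be built
from typed representations, or any representations among which those over the ring of integers of
one number field are dense, characters, affine spaces and bounded points over number fields, by
algebraic constructions over `ℤ`. The index set `G` in `sub` and `kummer` is usually a group and the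
coordinates the entries of the matrices of all its elements, so the operations include direct sums,
tensor products, duals, Schur functors (`prod`, `poly`), pull-back to and induction from subgroups
and quotients, more generally all representations given by the cohomology of complexes of
matrices over the group ring (`sub`), and twists by roots of the determinant (`kummer`, `poly`). -/
inductive Built : ∀ {E : Type}, Set (E → ℂ) → Prop
  /-- direct sums of irreducible representations of given types (see `TypeDatum.Valid`, `HasType`)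
  with prescribed quasi-unipotent classes `C j` of the elements `w j`, for any finitely generated
  group `⟨ι | R⟩` -/
  | typed {ι : Type} [Finite ι] (R : Set (FreeGroup ι)) (r s : ℕ) (w : Fin s → FreeGroup ι)
      (C : Fin s → SpecialLinearGroup (Fin r) ℂ)
      (hC : ∀ j z, IsEigenvalue (C j) z → ∃ n : ℕ, 0 < n ∧ z ^ n = 1)
      (k : ℕ) (D : Fin k → TypeDatum (PresentedGroup R))
      (hD : ∀ a, (D a).Valid fun j => PresentedGroup.mk R (w j)) :
      Built (pt '' YMulti R w C k D)
  /-- sets of representations in which those over the integers of a number field are dense -/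
  | rep {ι : Type} {r : ℕ} (T : Set (ι → SpecialLinearGroup (Fin r) ℂ))
      (L : IntermediateField ℚ ℂ) (hL : FiniteDimensional ℚ L) (h : IsDenseRep L T) :
      Built (pt '' T)
  /-- the characters of a finitely generated group -/
  | chars (G : Type) [Group G] [Group.FG G] : Built (chars G)
  /-- affine spaces -/
  | affine (E : Type) : Built (Set.univ : Set (E → ℂ))
  /-- points whose coordinates lie in a number field and have a common denominator -/
  | point {E : Type} (L : IntermediateField ℚ ℂ) (hL : FiniteDimensional ℚ L) (x : E → ℂ)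
      (hx : Bdd L x) : Built {x}
  /-- products -/
  | prod {E E' : Type} {T : Set (E → ℂ)} {T' : Set (E' → ℂ)} (hT : Built T) (hT' : Built T') :
      Built {z : E ⊕ E' → ℂ | z ∘ Sum.inl ∈ T ∧ z ∘ Sum.inr ∈ T'}
  /-- finite unions -/
  | union {E : Type} {T T' : Set (E → ℂ)} (hT : Built T) (hT' : Built T') : Built (T ∪ T')
  /-- images under polynomial maps over `ℤ` of bounded degree -/
  | poly {E E' : Type} {T : Set (E → ℂ)} (hT : Built T) (Φ : E' → MvPolynomial E ℤ) (D : ℕ)
      (hD : ∀ e, (Φ e).totalDegree ≤ D) : Built ((fun x e => ev x (Φ e)) '' T)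
  /-- subquotients: kernels modulo images of matrices with polynomial entries over `ℤ` -/
  | sub {E G : Type} {T : Set (E → ℂ)} (hT : Built T) (S : SubData E G)
      (hS : ∀ x ∈ T, S.Valid x) (d : ℕ) : Built (S.quot T d)
  /-- roots of characters -/
  | kummer {E G : Type} [Group G] [Group.FG G] {T : Set (E → ℂ)} (hT : Built T)
      (u : G → MvPolynomial E ℤ) (D : ℕ) (hD : ∀ g, (u g).totalDegree ≤ D) (n : ℕ) (hn : 0 < n)
      (hu : ∀ x ∈ T, ∃ χ : G →* ℂˣ, ∀ g, ((χ g : ℂˣ) : ℂ) ^ n = ev x (u g)) :
      Built (kummer T u n)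
  /-- relatively open subsets -/
  | opn {E : Type} {T T' : Set (E → ℂ)} (hT : Built T) (hTT : T' ⊆ T)
      (h : ∀ x ∈ T', ∃ f : MvPolynomial E ℂ, MvPolynomial.eval x f ≠ 0 ∧
        ∀ y ∈ T, MvPolynomial.eval y f ≠ 0 → y ∈ T') : Built T'
  /-- sets between a built set and its closure -/
  | clos {E : Type} {T T' : Set (E → ℂ)} (hT : Built T) (h : T ⊆ T') (h' : ZDense T T') : Built T'

end Vale.Agent.P002.H85F
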