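import Vale.Agent.P002.H85.Fam.Chars

/-!
# Roots of characters
-/

namespace Vale.Agent.P002.H85F

open MvPolynomial

/-- bounded powers: the number is integral -/
theorem integral_of_powers {L : IntermediateField ℚ ℂ} [FiniteDimensional ℚ L] {v : ℂ}
    (hv : v ∈ L) {N : ℕ} (hN : N ≠ 0) (h : ∀ k : ℕ, IsIntegral ℤ ((N : ℂ) * v ^ k)) :
    IsIntegral ℤ v := by
  have hL : NumberField L := { }
  obtain ⟨v', rfl⟩ : ∃ v' : L, (v' : ℂ) = v := ⟨⟨v, hv⟩, rfl⟩
  have h1 : IsAlmostIntegral (NumberField.RingOfIntegers L) v' := by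
    refine ⟨(N : NumberField.RingOfIntegers L),
      mem_nonZeroDivisors_of_ne_zero (Nat.cast_ne_zero.2 hN), fun k => ?_⟩
    have h2 : IsIntegral ℤ ((N : L) * v' ^ k) := by
      have h3 := h k
      have h4 : (N : ℂ) * (v' : ℂ) ^ k = algebraMap L ℂ ((N : L) * v' ^ k) := by
        rw [map_mul, map_natCast, map_pow]
        rfl
      rw [h4] at h3
      exact (isIntegral_algebraMap_iff (algebraMap L ℂ).injective).1 h3
    refine ⟨⟨(N : L) * v' ^ k, h2⟩, ?_⟩
    rw [Algebra.smul_def, map_natCast]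
    rfl
  have h5 : IsIntegral (NumberField.RingOfIntegers L) v' := h1.isIntegral
  have h6 : IsIntegral ℤ v' := isIntegral_trans _ h5
  exact h6.map (IsScalarTower.toAlgHom ℤ L ℂ)

/-- one number field contains the roots of all units of a number field -/
theorem exists_root_field (L : IntermediateField ℚ ℂ) [FiniteDimensional ℚ L] {n : ℕ}
    (hn : 0 < n) : ∃ L' : IntermediateField ℚ ℂ, FiniteDimensional ℚ L' ∧ L ≤ L' ∧
      ∀ v w : ℂ, v ∈ L → IsIntegral ℤ v → IsIntegral ℤ v⁻¹ → v ≠ 0 → w ^ n = v → w ∈ L' := by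
  classical
  have hL : NumberField L := { }
  obtain ⟨gens, hgens⟩ := (Group.fg_iff_monoid_fg.2 (inferInstance :
    Monoid.FG (NumberField.RingOfIntegers L)ˣ)).out
  obtain ⟨S, hS⟩ : ∃ S : Set ℂ, S = ((Polynomial.nthRoots n (1 : ℂ)).toFinset : Set ℂ) ∪
      ⋃ γ ∈ gens, ((Polynomial.nthRoots n (((γ : NumberField.RingOfIntegers L) : L) : ℂ)).toFinset
        : Set ℂ) := ⟨_, rfl⟩
  have hSf : S.Finite := by
    rw [hS]
    exact (Finset.finite_toSet _).union (gens.finite_toSet.biUnion fun _ _ => Finset.finite_toSet _)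
  have hint : ∀ γ : NumberField.RingOfIntegers L, IsIntegral ℤ ((γ : L) : ℂ) := fun γ =>
    (NumberField.RingOfIntegers.isIntegral_coe γ).map (IsScalarTower.toAlgHom ℤ L ℂ)
  have hSi : ∀ z ∈ S, IsIntegral ℚ z := by
    intro z hz
    have h1 : IsIntegral ℤ z := by
      rw [hS] at hz
      rcases hz with hz | hz
      · rw [Finset.mem_coe, Multiset.mem_toFinset, Polynomial.mem_nthRoots hn] at hz
        refine IsIntegral.of_pow hn ?_
        rw [hz]
        exact isIntegral_one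
      · obtain ⟨γ, hγ, hz⟩ := Set.mem_iUnion₂.1 hz
        rw [Finset.mem_coe, Multiset.mem_toFinset, Polynomial.mem_nthRoots hn] at hz
        refine IsIntegral.of_pow hn ?_
        rw [hz]
        exact hint _
    exact h1.tower_top
  have hfd := Vale.Agent.P002.H306.exists_nf _ hSf hSi
  refine ⟨L ⊔ IntermediateField.adjoin ℚ S, IntermediateField.finiteDimensional_sup _ _,
    le_sup_left, ?_⟩
  obtain ⟨L', hL'⟩ : ∃ L' : IntermediateField ℚ ℂ, L' = L ⊔ IntermediateField.adjoin ℚ S :=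
    ⟨_, rfl⟩
  rw [← hL']
  have hSL : ∀ z ∈ S, z ∈ L' := fun z hz => by
    rw [hL']
    exact (le_sup_right : _ ≤ L ⊔ IntermediateField.adjoin ℚ S)
      (IntermediateField.subset_adjoin _ _ hz)
  -- the subgroup of units all of whose roots are in `L'`
  obtain ⟨Γ, hΓ⟩ : ∃ Γ : Subgroup (NumberField.RingOfIntegers L)ˣ, ∀ γ, γ ∈ Γ ↔
      ∀ w : ℂ, w ^ n = (((γ : NumberField.RingOfIntegers L) : L) : ℂ) → w ∈ L' := by
    refine ⟨{ carrier := {γ | ∀ w : ℂ, w ^ n = (((γ : NumberField.RingOfIntegers L) : L) : ℂ) →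
                w ∈ L'}
              one_mem' := ?_
              mul_mem' := ?_
              inv_mem' := ?_ }, fun γ => Iff.rfl⟩
    · intro γ γ' h h' w hw
      obtain ⟨w₁, hw₁⟩ := IsAlgClosed.exists_pow_nat_eq
        (((γ : NumberField.RingOfIntegers L) : L) : ℂ) hn
      have h0 : w₁ ≠ 0 := by
        rintro rfl
        rw [zero_pow hn.ne'] at hw₁
        have h2 : ((γ : NumberField.RingOfIntegers L) : L) = 0 := by exact_mod_cast hw₁.symm
        have h3 : (γ : NumberField.RingOfIntegers L) = 0 := by exact_mod_cast h2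
        exact γ.ne_zero h3
      have h1 : (w / w₁) ^ n = (((γ' : NumberField.RingOfIntegers L) : L) : ℂ) := by
        rw [div_pow, hw, hw₁, Units.val_mul]
        have h2 : (((γ : NumberField.RingOfIntegers L) : L) : ℂ) ≠ 0 := by
          rw [← hw₁]
          exact pow_ne_zero _ h0
        rw [div_eq_iff h2, mul_comm]
        simp
      have h4 := mul_mem (h _ hw₁) (h' _ h1)
      rwa [mul_div_cancel₀ _ h0] at h4
    · intro w hw
      refine hSL _ ?_
      rw [hS]
      refine Or.inl ?_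
      rw [Finset.mem_coe, Multiset.mem_toFinset, Polynomial.mem_nthRoots hn, hw]
      simp
    · intro γ h w hw
      have h1 : w⁻¹ ^ n = (((γ : NumberField.RingOfIntegers L) : L) : ℂ) := by
        rw [inv_pow, hw]
        have h2 : (((γ : NumberField.RingOfIntegers L) : L) : ℂ) *
            ((((γ⁻¹ : (NumberField.RingOfIntegers L)ˣ) : NumberField.RingOfIntegers L) : L) : ℂ)
              = 1 := by
          have h3 := congrArg (fun z : NumberField.RingOfIntegers L => ((z : L) : ℂ))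
            (Units.mul_inv γ)
          simp
        exact (eq_inv_of_mul_eq_one_left h2).symm
      have h2 := inv_mem (h _ h1)
      rwa [inv_inv] at h2
  have htop : Γ = ⊤ := by
    rw [eq_top_iff, ← hgens, Subgroup.closure_le]
    intro γ hγ
    rw [SetLike.mem_coe, hΓ]
    intro w hw
    refine hSL _ ?_
    rw [hS]
    refine Or.inr (Set.mem_iUnion₂.2 ⟨γ, hγ, ?_⟩)
    rw [Finset.mem_coe, Multiset.mem_toFinset, Polynomial.mem_nthRoots hn]
    exact hw
  intro v w hv hvi hvi' hv0 hw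
  have h1 : IsIntegral ℤ (⟨v, hv⟩ : L) :=
    (isIntegral_algebraMap_iff (algebraMap L ℂ).injective).1 hvi
  have h2 : IsIntegral ℤ (⟨v, hv⟩⁻¹ : L) := by
    refine (isIntegral_algebraMap_iff (algebraMap L ℂ).injective).1 ?_
    rw [map_inv₀]
    exact hvi'
  have h0 : (⟨v, hv⟩ : L) ≠ 0 := fun h => hv0 (congrArg Subtype.val h)
  obtain ⟨γ, hγ⟩ : ∃ γ : (NumberField.RingOfIntegers L)ˣ,
      (((γ : NumberField.RingOfIntegers L) : L) : ℂ) = v := by
    refine ⟨⟨⟨⟨v, hv⟩, h1⟩, ⟨⟨v, hv⟩⁻¹, h2⟩, ?_, ?_⟩, rfl⟩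
    · ext
      exact congrArg Subtype.val (mul_inv_cancel₀ h0)
    · ext
      exact congrArg Subtype.val (inv_mul_cancel₀ h0)
  have h3 : γ ∈ Γ := by
    rw [htop]
    trivial
  exact (hΓ γ).1 h3 w (by rw [hγ]; exact hw)

/-- the characters killed by `n` -/
def dual (A : Type) [CommGroup A] (n : ℕ) : Subgroup (A →* ℂˣ) := (powMonoidHom n).ker

theorem mem_dual {A : Type} [CommGroup A] {n : ℕ} {ε : A →* ℂˣ} :
    ε ∈ dual A n ↔ ∀ a, ε a ^ n = 1 := by
  rw [dual, MonoidHom.mem_ker, powMonoidHom_apply]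
  constructor
  · intro h a
    exact DFunLike.congr_fun h a
  · intro h
    ext a
    exact congrArg Units.val (h a)

theorem finite_dual (A : Type) [CommGroup A] [Group.FG A] {n : ℕ} (hn : 0 < n) :
    Finite (dual A n) := by
  classical
  have : NeZero n := ⟨hn.ne'⟩
  obtain ⟨S, hS⟩ := (inferInstance : Group.FG A).out
  refine Finite.of_injective (β := S → rootsOfUnity n ℂ)
    (fun ε s => ⟨ε.1 s, (mem_rootsOfUnity _ _).2 (mem_dual.1 ε.2 s)⟩) fun ε ε' h => ?_
  refine Subtype.ext (MonoidHom.eq_of_eqOn_dense hS fun s hs => ?_)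
  exact congrArg Subtype.val (congrFun h ⟨s, hs⟩)

/-- orthogonality -/
theorem sum_dual (A : Type) [CommGroup A] [Group.FG A] {n : ℕ} (hn : 0 < n)
    [Fintype (dual A n)] (k : A) (hk : ¬ ∃ l, l ^ n = k) :
    ∑ ε : dual A n, ((ε.1 k : ℂˣ) : ℂ) = 0 := by
  classical
  have : NeZero n := ⟨hn.ne'⟩
  obtain ⟨P, hP⟩ : ∃ P : Subgroup A, P = (powMonoidHom n : A →* A).range := ⟨_, rfl⟩
  have hQt : ∀ q : A ⧸ P, q ^ n = 1 := by
    intro q
    obtain ⟨a, rfl⟩ := QuotientGroup.mk_surjective q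
    rw [← QuotientGroup.mk_pow, QuotientGroup.eq_one_iff, hP]
    exact ⟨a, rfl⟩
  have hQf : Finite (A ⧸ P) := CommGroup.finite_of_fg_isMulTorsion _ (by
    intro q
    exact isOfFinOrder_iff_pow_eq_one.2 ⟨n, hn, hQt q⟩)
  have hk1 : (QuotientGroup.mk k : A ⧸ P) ≠ 1 := by
    rw [Ne, QuotientGroup.eq_one_iff, hP]
    rintro ⟨l, hl⟩
    exact hk ⟨l, hl⟩
  obtain ⟨φ, hφ⟩ := CommGroup.exists_apply_ne_one_of_hasEnoughRootsOfUnity (A ⧸ P) ℂ hk1
  obtain ⟨ε₀, hε₀⟩ : ∃ ε₀ : dual A n, ε₀.1 k ≠ 1 :=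
    ⟨⟨φ.comp (QuotientGroup.mk' P), mem_dual.2 fun a => by
      rw [← map_pow, MonoidHom.comp_apply, map_pow, hQt, map_one]⟩, hφ⟩
  have h1 : ∑ ε : dual A n, ((ε.1 k : ℂˣ) : ℂ) =
      ((ε₀.1 k : ℂˣ) : ℂ) * ∑ ε : dual A n, ((ε.1 k : ℂˣ) : ℂ) := by
    rw [Finset.mul_sum, ← Equiv.sum_comp (Equiv.mulLeft ε₀)]
    refine Finset.sum_congr rfl fun ε _ => ?_
    rw [Equiv.coe_mulLeft, Subgroup.coe_mul, MonoidHom.mul_apply, Units.val_mul]
  by_contra h2
  have h3 : ((ε₀.1 k : ℂˣ) : ℂ) = 1 := by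
    have h4 : (1 - ((ε₀.1 k : ℂˣ) : ℂ)) * ∑ ε : dual A n, ((ε.1 k : ℂˣ) : ℂ) = 0 := by
      rw [sub_mul, one_mul, ← h1, sub_self]
    rcases mul_eq_zero.1 h4 with h4 | h4
    · exact (sub_eq_zero.1 h4).symm
    · exact absurd h4 h2
  exact hε₀ (Units.ext h3)

section

variable {E G : Type} [Group G]

/-- the coefficient of the monomial `m`, a polynomial on `E` -/
noncomputable def cf (f : MvPolynomial (E ⊕ G) ℂ) (m : E ⊕ G →₀ ℕ) : MvPolynomial E ℂ :=
  C (coeff m f) * ∏ i ∈ m.support, (Sum.elim X (fun _ => 1) i : MvPolynomial E ℂ) ^ m i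

/-- the element of the abelianization of the monomial `m` -/
noncomputable def el (m : E ⊕ G →₀ ℕ) : Abelianization G :=
  ∏ i ∈ m.support, (Sum.elim (fun _ => 1) (fun g => Abelianization.of g) i :
    Abelianization G) ^ m i

theorem eval_split (f : MvPolynomial (E ⊕ G) ℂ) (x : E → ℂ) (χ : Abelianization G →* ℂˣ) :
    eval (Sum.elim x fun g => ((χ (Abelianization.of g) : ℂˣ) : ℂ)) f =
      ∑ m ∈ f.support, eval x (cf f m) * ((χ (el m) : ℂˣ) : ℂ) := by
  rw [eval_eq]
  refine Finset.sum_congr rfl fun m _ => ?_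
  rw [cf, el, map_mul, eval_C, map_prod, map_prod, Units.coe_prod, mul_assoc,
    ← Finset.prod_mul_distrib]
  congr 1
  refine Finset.prod_congr rfl fun i _ => ?_
  rw [map_pow, map_pow, Units.val_pow_eq_pow_val, ← mul_pow]
  congr 1
  rcases i with i | i
  · simp
  · simp

end

/-- **Roots of characters of good families are good.** -/
theorem Good.kummer {E G : Type} [Group G] [Group.FG G] {T : Set (E → ℂ)} (hT : Good T)
    (u : G → MvPolynomial E ℤ) (D : ℕ) (hD : ∀ g, (u g).totalDegree ≤ D) {n : ℕ} (hn : 0 < n)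
    (hu : ∀ x ∈ T, ∃ χ : G →* ℂˣ, ∀ g, ((χ g : ℂˣ) : ℂ) ^ n = ev x (u g)) :
    Good (kummer T u n) := by
  classical
  have hA := fg_ab G
  obtain ⟨L, hL, hd⟩ := hT
  obtain ⟨L', hL', hLL', hroot⟩ := exists_root_field L hn
  refine ⟨L', hL', fun f hf => ?_⟩
  have hfin := finite_dual (Abelianization G) hn
  have := Fintype.ofFinite (dual (Abelianization G) n)
  -- the values of the character at the classes of the abelianization
  obtain ⟨q, hq⟩ : ∃ q : Abelianization G → G, ∀ a, Abelianization.of (q a) = a :=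
    ⟨fun a => (QuotientGroup.mk'_surjective _ a).choose,
      fun a => (QuotientGroup.mk'_surjective _ a).choose_spec⟩
  have hval : ∀ x, ∀ χ : Abelianization G →* ℂˣ,
      (∀ g, ((χ (Abelianization.of g) : ℂˣ) : ℂ) ^ n = ev x (u g)) → ∀ l,
      ((χ (l ^ n) : ℂˣ) : ℂ) = ev x (u (q l)) := by
    intro x χ hχ l
    rw [map_pow, Units.val_pow_eq_pow_val, ← hχ, hq]
  -- the trace polynomial
  obtain ⟨P, hP⟩ : ∃ P : Abelianization G → MvPolynomial E ℂ, ∀ h, P h =
      ∑ m ∈ f.support, cf f m * (if hk : ∃ l, l ^ n = h * el m then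
        C (Fintype.card (dual (Abelianization G) n) : ℂ) *
          map (Int.castRingHom ℂ) (u (q hk.choose)) else 0) := ⟨_, fun _ => rfl⟩
  have htr : ∀ x, ∀ χ : Abelianization G →* ℂˣ,
      (∀ g, ((χ (Abelianization.of g) : ℂˣ) : ℂ) ^ n = ev x (u g)) → ∀ h,
      ∑ ε : dual (Abelianization G) n, ((((χ * ε.1) h : ℂˣ)) : ℂ) *
        eval (Sum.elim x fun g => (((χ * ε.1) (Abelianization.of g) : ℂˣ) : ℂ)) f =
      eval x (P h) := by
    intro x χ hχ h
    rw [hP, map_sum]
    simp_rw [eval_split, Finset.mul_sum]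
    rw [Finset.sum_comm]
    refine Finset.sum_congr rfl fun m _ => ?_
    have h1 : ∀ ε : dual (Abelianization G) n, ((((χ * ε.1) h : ℂˣ)) : ℂ) *
        (eval x (cf f m) * (((χ * ε.1) (el m) : ℂˣ) : ℂ)) =
        eval x (cf f m) * ((((χ (h * el m)) : ℂˣ) : ℂ) * ((ε.1 (h * el m) : ℂˣ) : ℂ)) := by
      intro ε
      simp only [MonoidHom.mul_apply, map_mul, Units.val_mul]
      ring
    simp_rw [h1]
    rw [← Finset.mul_sum, ← Finset.mul_sum, map_mul (eval x)]
    congr 1
    split_ifs with hk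
    · have h2 : ∀ ε : dual (Abelianization G) n, ((ε.1 (h * el m) : ℂˣ) : ℂ) = 1 := by
        intro ε
        rw [← hk.choose_spec, map_pow, mem_dual.1 ε.2, Units.val_one]
      simp_rw [h2]
      rw [Finset.sum_const, Finset.card_univ, nsmul_eq_mul, mul_one, map_mul (eval x), eval_C,
        mul_comm, ← ev_eq, ← hval x χ hχ, hk.choose_spec]
    · rw [sum_dual _ hn _ hk, mul_zero, map_zero]
  -- bounded points of the base
  have hbase : ∀ h, ∀ x ∈ T, eval x (P h) = 0 := by
    intro h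
    refine hd (P h) fun x hx => ?_
    obtain ⟨χ₀, hχ₀⟩ := hu x hx.1
    rw [← htr x (Abelianization.lift χ₀) (fun g => by
      rw [Abelianization.lift_apply_of]
      exact hχ₀ g)]
    refine Finset.sum_eq_zero fun ε _ => ?_
    refine mul_eq_zero_of_right _ (hf _ ⟨⟨?_, ((Abelianization.lift χ₀) * ε.1).comp
      Abelianization.of, fun g => ⟨rfl, ?_⟩⟩, ?_, ?_⟩)
    · rw [Sum.elim_comp_inl]
      exact hx.1
    · rw [Sum.elim_comp_inl, MonoidHom.comp_apply, MonoidHom.mul_apply, Units.val_mul, mul_pow,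
        Abelianization.lift_apply_of, hχ₀, ← Units.val_pow_eq_pow_val, mem_dual.1 ε.2,
        Units.val_one, mul_one]
    all_goals
      have hw : ∀ g, ((((Abelianization.lift χ₀) * ε.1) (Abelianization.of g) : ℂˣ) : ℂ) ^ n =
          ev x (u g) := by
        intro g
        rw [MonoidHom.mul_apply, Units.val_mul, mul_pow,
          Abelianization.lift_apply_of, hχ₀, ← Units.val_pow_eq_pow_val, mem_dual.1 ε.2,
          Units.val_one, mul_one]
      obtain ⟨N, hN, hNx⟩ := hx.2.2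
      have hpow : ∀ g, IsIntegral ℤ (ev x (u g)) := by
        intro g
        refine integral_of_powers (L := L) (ev_mem hx.2.1 _) (pow_ne_zero D hN) fun k => ?_
        rw [← hχ₀, ← pow_mul, mul_comm n k, pow_mul, ← Units.val_pow_eq_pow_val _ k, ← map_pow,
          hχ₀, Nat.cast_pow]
        exact ev_integral hNx _ (hD _)
      have hinv : ∀ g, (ev x (u g))⁻¹ = ev x (u g⁻¹) := by
        intro g
        rw [← hχ₀, ← hχ₀, map_inv, Units.val_inv_eq_inv_val, inv_pow]
      have hne : ∀ g, ev x (u g) ≠ 0 := by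
        intro g
        rw [← hχ₀]
        exact pow_ne_zero _ (Units.ne_zero _)
    · rintro (e | g)
      · exact hLL' (hx.2.1 e)
      · exact hroot _ _ (ev_mem hx.2.1 (u g)) (hpow g) (by rw [hinv]; exact hpow _) (hne g) (hw g)
    · refine ⟨N, hN, ?_⟩
      rintro (e | g)
      · exact hNx e
      · have h4 : (N : ℂ) = algebraMap ℤ ℂ (N : ℤ) := by simp
        refine IsIntegral.mul (by rw [h4]; exact isIntegral_algebraMap) ?_
        refine IsIntegral.of_pow hn ?_
        have h5 := hpow g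
        rw [← hw g] at h5
        exact h5
  -- the end
  rintro z ⟨hz, χ, hχ⟩
  have hχ' : ∀ g, (((Abelianization.lift χ) (Abelianization.of g) : ℂˣ) : ℂ) ^ n =
      ev (z ∘ Sum.inl) (u g) := fun g => by
    rw [Abelianization.lift_apply_of]
    exact (hχ g).2
  have hz' : z = Sum.elim (z ∘ Sum.inl)
      fun g => (((Abelianization.lift χ) (Abelianization.of g) : ℂˣ) : ℂ) := by
    funext i
    rcases i with e | g
    · rfl
    · rw [Sum.elim_inr, Abelianization.lift_apply_of]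
      exact (hχ g).1
  have hfinal := dedekind (X := Abelianization G) (B := dual (Abelianization G) n)
    (fun ε => (Units.coeHom ℂ).comp ε.1) ?_ Finset.univ
    (fun ε => eval (Sum.elim (z ∘ Sum.inl)
      fun g => (((Abelianization.lift χ * ε.1) (Abelianization.of g) : ℂˣ) : ℂ)) f) id ?_
    (fun ε => if ε = 1 then 1 else 0)
  · simp only [id, mul_ite, mul_one, mul_zero, Finset.sum_ite_eq', Finset.mem_univ, if_true]
      at hfinal
    rw [hz']
    simpa using hfinal
  · intro ε ε' h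
    refine Subtype.ext (MonoidHom.ext fun a => Units.ext ?_)
    exact DFunLike.congr_fun h a
  · intro h
    have h1 := htr _ _ hχ' h
    rw [hbase h _ hz] at h1
    have h2 : ∀ ε : dual (Abelianization G) n,
        (((Abelianization.lift χ * ε.1) h : ℂˣ) : ℂ) * eval (Sum.elim (z ∘ Sum.inl)
          fun g => (((Abelianization.lift χ * ε.1) (Abelianization.of g) : ℂˣ) : ℂ)) f =
        (((Abelianization.lift χ) h : ℂˣ) : ℂ) * (eval (Sum.elim (z ∘ Sum.inl)
          fun g => (((Abelianization.lift χ * ε.1) (Abelianization.of g) : ℂˣ) : ℂ)) f *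
          ((ε.1 h : ℂˣ) : ℂ)) := by
      intro ε
      rw [MonoidHom.mul_apply, Units.val_mul]
      ring
    simp_rw [h2] at h1
    rw [← Finset.mul_sum, mul_eq_zero] at h1
    exact h1.resolve_left (Units.ne_zero _)

end Vale.Agent.P002.H85F
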