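import Vale.Agent.P002.H85.Constr

/-!
# Coordinates on a quotient of subspaces: linear algebra
-/

namespace Vale.Agent.P002.H85F

open Matrix Module

theorem exists_fun_fin {m : ℕ} (S : Set (Fin m → ℂ)) (n : ℕ)
    (h : finrank ℂ (Submodule.span ℂ S) = n) :
    ∃ f : Fin n → (Fin m → ℂ), (∀ i, f i ∈ S) ∧
      Submodule.span ℂ (Set.range f) = Submodule.span ℂ S ∧ LinearIndependent ℂ f := by
  subst h
  exact Submodule.exists_fun_fin_finrank_span_eq ℂ S

/-- the matrix whose columns are the standard basis vectors `c b` -/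
def Ec {m s : ℕ} (c : Fin s → Fin m) : Matrix (Fin m) (Fin s) ℂ :=
  Matrix.of fun j b => if j = c b then 1 else 0

theorem mul_Ec {k m s : ℕ} (A : Matrix (Fin k) (Fin m) ℂ) (c : Fin s → Fin m) (a : Fin k)
    (b : Fin s) : (A * Ec c) a b = A a (c b) := by
  rw [Matrix.mul_apply, Finset.sum_eq_single (c b)]
  · rw [Ec, Matrix.of_apply, if_pos rfl, mul_one]
  · intro j _ hj
    rw [Ec, Matrix.of_apply, if_neg hj, mul_zero]
  · exact fun h => absurd (Finset.mem_univ _) h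

theorem Ec_mul {k m s : ℕ} (A : Matrix (Fin m) (Fin k) ℂ) (c : Fin s → Fin m) (b : Fin s)
    (a : Fin k) : ((Ec c)ᵀ * A) b a = A (c b) a := by
  rw [Matrix.mul_apply, Finset.sum_eq_single (c b)]
  · rw [Matrix.transpose_apply, Ec, Matrix.of_apply, if_pos rfl, one_mul]
  · intro j _ hj
    rw [Matrix.transpose_apply, Ec, Matrix.of_apply, if_neg hj, zero_mul]
  · exact fun h => absurd (Finset.mem_univ _) h

variable {m s t d : ℕ}

/-- a right inverse of `A` -/
noncomputable def rr (A : Matrix (Fin s) (Fin m) ℂ) (c : Fin s → Fin m) :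
    Matrix (Fin m) (Fin s) ℂ := Ec c * (A * Ec c)⁻¹

/-- a left inverse of `B` -/
noncomputable def ll (B : Matrix (Fin m) (Fin t) ℂ) (c : Fin t → Fin m) :
    Matrix (Fin t) (Fin m) ℂ := ((Ec c)ᵀ * B)⁻¹ * (Ec c)ᵀ

/-- the projection to the kernel of `A`, and to a complement of the image of `B` in it -/
noncomputable def Th (A : Matrix (Fin s) (Fin m) ℂ) (B : Matrix (Fin m) (Fin t) ℂ)
    (c : Fin s → Fin m) (c2 : Fin t → Fin m) : Matrix (Fin m) (Fin m) ℂ :=
  (1 - B * ll B c2) * (1 - rr A c * A)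

/-- representatives of a basis of the quotient -/
noncomputable def PP2 (A : Matrix (Fin s) (Fin m) ℂ) (B : Matrix (Fin m) (Fin t) ℂ)
    (c : Fin s → Fin m) (c2 : Fin t → Fin m) (u : Fin d → Fin m) : Matrix (Fin m) (Fin d) ℂ :=
  Th A B c c2 * Ec u

/-- the coordinates on the quotient -/
noncomputable def PP1 (A : Matrix (Fin s) (Fin m) ℂ) (B : Matrix (Fin m) (Fin t) ℂ)
    (c : Fin s → Fin m) (c2 : Fin t → Fin m) (c1 u : Fin d → Fin m) :
    Matrix (Fin d) (Fin m) ℂ :=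
  ((Ec c1)ᵀ * (Th A B c c2 * Ec u))⁻¹ * ((Ec c1)ᵀ * (1 - B * ll B c2))

theorem A_rr {A : Matrix (Fin s) (Fin m) ℂ} {c : Fin s → Fin m} (h : (A * Ec c).det ≠ 0) :
    A * rr A c = 1 := by
  rw [rr, ← Matrix.mul_assoc, Matrix.mul_nonsing_inv _ (isUnit_iff_ne_zero.2 h)]

theorem ll_B {B : Matrix (Fin m) (Fin t) ℂ} {c : Fin t → Fin m} (h : ((Ec c)ᵀ * B).det ≠ 0) :
    ll B c * B = 1 := by
  rw [ll, Matrix.mul_assoc, Matrix.nonsing_inv_mul _ (isUnit_iff_ne_zero.2 h)]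

section

variable {K I : Submodule ℂ (Fin m → ℂ)} (hIK : I ≤ K)
  {A : Matrix (Fin s) (Fin m) ℂ} {B : Matrix (Fin m) (Fin t) ℂ}
  (hA : ∀ v ∈ K, A *ᵥ v = 0) (hB : ∀ w, B *ᵥ w ∈ I)
  {c : Fin s → Fin m} {c2 : Fin t → Fin m}
  (hW : (A * Ec c).det ≠ 0) (hW2 : ((Ec c2)ᵀ * B).det ≠ 0)

include hA hW in
theorem mem_K_iff (hKs : m ≤ finrank ℂ K + s) (v : Fin m → ℂ) : v ∈ K ↔ A *ᵥ v = 0 := by
  have h1 : Function.Surjective A.mulVecLin := fun y =>
    ⟨rr A c *ᵥ y, by rw [Matrix.mulVecLin_apply, Matrix.mulVec_mulVec, A_rr hW, Matrix.one_mulVec]⟩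
  have h2 := LinearMap.finrank_range_add_finrank_ker A.mulVecLin
  rw [LinearMap.range_eq_top.2 h1, finrank_top, finrank_fin_fun, finrank_fin_fun] at h2
  have h3 : K = LinearMap.ker A.mulVecLin := by
    refine Submodule.eq_of_le_of_finrank_le (fun v hv => ?_) (by omega)
    rw [LinearMap.mem_ker, Matrix.mulVecLin_apply]
    exact hA v hv
  rw [h3, LinearMap.mem_ker, Matrix.mulVecLin_apply]

include hA hW in
theorem finrank_K (hKs : m ≤ finrank ℂ K + s) : finrank ℂ K + s = m := by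
  have h1 : Function.Surjective A.mulVecLin := fun y =>
    ⟨rr A c *ᵥ y, by rw [Matrix.mulVecLin_apply, Matrix.mulVec_mulVec, A_rr hW, Matrix.one_mulVec]⟩
  have h2 := LinearMap.finrank_range_add_finrank_ker A.mulVecLin
  rw [LinearMap.range_eq_top.2 h1, finrank_top, finrank_fin_fun, finrank_fin_fun] at h2
  have h3 : finrank ℂ K ≤ finrank ℂ (LinearMap.ker A.mulVecLin) :=
    Submodule.finrank_mono fun v hv => by
      rw [LinearMap.mem_ker, Matrix.mulVecLin_apply]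
      exact hA v hv
  omega

include hW2 in
theorem B_inj : Function.Injective B.mulVecLin := fun w w' h => by
  rw [Matrix.mulVecLin_apply, Matrix.mulVecLin_apply] at h
  have h1 := congrArg (fun v => ll B c2 *ᵥ v) h
  simp only [Matrix.mulVec_mulVec, ll_B hW2, Matrix.one_mulVec] at h1
  exact h1

include hB hW2 in
theorem mem_I_iff (hIt : finrank ℂ I ≤ t) (v : Fin m → ℂ) : v ∈ I ↔ ∃ w, B *ᵥ w = v := by
  have h2 := LinearMap.finrank_range_of_inj (B_inj hW2)
  rw [finrank_fin_fun] at h2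
  have h3 : LinearMap.range B.mulVecLin = I := by
    refine Submodule.eq_of_le_of_finrank_le ?_ (by omega)
    rintro _ ⟨w, rfl⟩
    rw [Matrix.mulVecLin_apply]
    exact hB w
  rw [← h3, LinearMap.mem_range]
  simp only [Matrix.mulVecLin_apply]

include hB hW2 in
theorem finrank_I (hIt : finrank ℂ I ≤ t) : finrank ℂ I = t := by
  have h2 := LinearMap.finrank_range_of_inj (B_inj hW2)
  rw [finrank_fin_fun] at h2
  have h3 : finrank ℂ (LinearMap.range B.mulVecLin) ≤ finrank ℂ I :=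
    Submodule.finrank_mono (by
      rintro _ ⟨w, rfl⟩
      rw [Matrix.mulVecLin_apply]
      exact hB w)
  omega

include hIK hA hB hW in
theorem Th_mem (hKs : m ≤ finrank ℂ K + s) (v : Fin m → ℂ) : Th A B c c2 *ᵥ v ∈ K := by
  have h1 : (1 - rr A c * A) *ᵥ v ∈ K := by
    rw [mem_K_iff hA hW hKs, Matrix.mulVec_mulVec, Matrix.mul_sub, Matrix.mul_one,
      ← Matrix.mul_assoc, A_rr hW, Matrix.one_mul, sub_self, Matrix.zero_mulVec]
  rw [Th, ← Matrix.mulVec_mulVec, Matrix.sub_mulVec, Matrix.one_mulVec, ← Matrix.mulVec_mulVec]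
  exact K.sub_mem h1 (hIK (hB _))

include hW2 in
theorem proj_Th : (1 - B * ll B c2) * Th A B c c2 = Th A B c c2 := by
  have h1 : (1 - B * ll B c2) * (1 - B * ll B c2) = 1 - B * ll B c2 := by
    have h2 : B * ll B c2 * (B * ll B c2) = B * ll B c2 := by
      rw [Matrix.mul_assoc, ← Matrix.mul_assoc (ll B c2), ll_B hW2, Matrix.one_mul]
    rw [Matrix.mul_sub, Matrix.mul_one, Matrix.sub_mul, Matrix.one_mul, h2]
    abel
  rw [Th, ← Matrix.mul_assoc, h1]

include hW2 in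
theorem ll_Th : ll B c2 * Th A B c c2 = 0 := by
  have h : ll B c2 * (1 - B * ll B c2) = 0 := by
    rw [Matrix.mul_sub, Matrix.mul_one, ← Matrix.mul_assoc, ll_B hW2, Matrix.one_mul, sub_self]
  rw [Th, ← Matrix.mul_assoc, h, Matrix.zero_mul]

/-- the complement of `I` in `K` -/
noncomputable def QQ (K : Submodule ℂ (Fin m → ℂ)) (B : Matrix (Fin m) (Fin t) ℂ)
    (c2 : Fin t → Fin m) : Submodule ℂ (Fin m → ℂ) := K ⊓ LinearMap.ker (ll B c2).mulVecLin

include hIK hB hW2 in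
theorem finrank_QQ (hd : finrank ℂ K = d + t) : finrank ℂ (QQ K B c2) = d := by
  have h1 : Function.Surjective ((ll B c2).mulVecLin.domRestrict K) := fun y =>
    ⟨⟨B *ᵥ y, hIK (hB y)⟩, by
      rw [LinearMap.domRestrict_apply, Matrix.mulVecLin_apply, Matrix.mulVec_mulVec, ll_B hW2,
        Matrix.one_mulVec]⟩
  have h2 := LinearMap.finrank_range_add_finrank_ker ((ll B c2).mulVecLin.domRestrict K)
  rw [LinearMap.range_eq_top.2 h1, finrank_top, finrank_fin_fun, hd] at h2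
  have h3 : finrank ℂ (LinearMap.ker ((ll B c2).mulVecLin.domRestrict K)) =
      finrank ℂ (QQ K B c2) := by
    have h4 : (LinearMap.ker ((ll B c2).mulVecLin.domRestrict K)).map K.subtype = QQ K B c2 := by
      ext v
      constructor
      · rintro ⟨w, hw, rfl⟩
        exact ⟨w.2, hw⟩
      · rintro ⟨h5, h6⟩
        exact ⟨⟨v, h5⟩, h6, rfl⟩
    rw [← h4]
    exact (LinearEquiv.finrank_eq (Submodule.equivMapOfInjective _ K.injective_subtype _))
  omega

include hIK hA hB hW hW2 in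
theorem range_Th (hKs : m ≤ finrank ℂ K + s) :
    LinearMap.range (Th A B c c2).mulVecLin = QQ K B c2 := by
  ext v
  constructor
  · rintro ⟨w, rfl⟩
    refine ⟨?_, ?_⟩
    · rw [Matrix.mulVecLin_apply]
      exact Th_mem hIK hA hB hW hKs w
    · change (ll B c2).mulVecLin ((Th A B c c2).mulVecLin w) = 0
      rw [Matrix.mulVecLin_apply, Matrix.mulVecLin_apply, Matrix.mulVec_mulVec, ll_Th hW2,
        Matrix.zero_mulVec]
  · rintro ⟨h1, h2⟩
    have h3 : ll B c2 *ᵥ v = 0 := h2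
    refine ⟨v, ?_⟩
    rw [Matrix.mulVecLin_apply, Th, ← Matrix.mulVec_mulVec]
    have h4 : (1 - rr A c * A) *ᵥ v = v := by
      rw [Matrix.sub_mulVec, Matrix.one_mulVec, ← Matrix.mulVec_mulVec, hA v h1,
        Matrix.mulVec_zero, sub_zero]
    rw [h4, Matrix.sub_mulVec, Matrix.one_mulVec, ← Matrix.mulVec_mulVec, h3,
      Matrix.mulVec_zero, sub_zero]

include hIK hA hB hW hW2 in
/-- coordinates on the quotient `K / I` -/
theorem triv_point (hKs : m ≤ finrank ℂ K + s) (hIt : finrank ℂ I ≤ t)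
    (hd : finrank ℂ K = d + t) {c1 u : Fin d → Fin m}
    (hG : ((Ec c1)ᵀ * (Th A B c c2 * Ec u)).det ≠ 0) :
    (∀ y, PP2 A B c c2 u *ᵥ y ∈ K) ∧ PP1 A B c c2 c1 u * PP2 A B c c2 u = 1 ∧
      ∀ v ∈ K, PP1 A B c c2 c1 u *ᵥ v = 0 ↔ v ∈ I := by
  have hu : IsUnit ((Ec c1)ᵀ * (Th A B c c2 * Ec u)).det := isUnit_iff_ne_zero.2 hG
  have h1 : ∀ y, PP2 A B c c2 u *ᵥ y ∈ QQ K B c2 := by
    intro y
    rw [PP2, ← Matrix.mulVec_mulVec, ← range_Th hIK hA hB hW hW2 hKs]
    exact ⟨_, rfl⟩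
  refine ⟨fun y => (h1 y).1, ?_, fun v hv => ⟨fun h => ?_, fun h => ?_⟩⟩
  · have h7 : (Ec c1)ᵀ * (1 - B * ll B c2) * (Th A B c c2 * Ec u) =
        (Ec c1)ᵀ * (Th A B c c2 * Ec u) := by
      rw [Matrix.mul_assoc, ← Matrix.mul_assoc (1 - B * ll B c2), proj_Th hW2]
    rw [PP1, PP2, Matrix.mul_assoc, h7, Matrix.nonsing_inv_mul _ hu]
  · -- the component in the complement
    obtain ⟨v', hv'⟩ : ∃ v', v' = v - B *ᵥ (ll B c2 *ᵥ v) := ⟨_, rfl⟩
    have h2 : (1 - B * ll B c2) *ᵥ v = v' := by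
      rw [hv', Matrix.sub_mulVec, Matrix.one_mulVec, Matrix.mulVec_mulVec]
    have h3 : v' ∈ QQ K B c2 := by
      refine ⟨?_, ?_⟩
      · rw [hv']
        exact K.sub_mem hv (hIK (hB _))
      · change (ll B c2).mulVecLin v' = 0
        rw [Matrix.mulVecLin_apply, ← h2, Matrix.mulVec_mulVec, Matrix.mul_sub, Matrix.mul_one,
          ← Matrix.mul_assoc, ll_B hW2, Matrix.one_mul, sub_self, Matrix.zero_mulVec]
    -- the representatives span the complement
    have h4 : LinearMap.range (PP2 A B c c2 u).mulVecLin = QQ K B c2 := by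
      have h5 : Function.Injective (PP2 A B c c2 u).mulVecLin := by
        intro w w' hww
        rw [Matrix.mulVecLin_apply, Matrix.mulVecLin_apply] at hww
        have h6 := congrArg (fun v => ((Ec c1)ᵀ * (Th A B c c2 * Ec u))⁻¹ *ᵥ ((Ec c1)ᵀ *ᵥ v)) hww
        simp only [PP2, Matrix.mulVec_mulVec] at h6
        rw [Matrix.nonsing_inv_mul _ hu, Matrix.one_mulVec, Matrix.one_mulVec] at h6
        exact h6
      have h6 := LinearMap.finrank_range_of_inj h5
      rw [finrank_fin_fun] at h6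
      refine Submodule.eq_of_le_of_finrank_le ?_ ?_
      · rintro _ ⟨w, rfl⟩
        rw [Matrix.mulVecLin_apply]
        exact h1 w
      · rw [h6, finrank_QQ hIK hB hW2 hd]
    rw [← h4] at h3
    obtain ⟨y, hy⟩ := h3
    rw [Matrix.mulVecLin_apply] at hy
    have h5 : y = 0 := by
      have h6 : PP1 A B c c2 c1 u *ᵥ v = y := by
        rw [PP1, ← Matrix.mulVec_mulVec, ← Matrix.mulVec_mulVec, h2, ← hy, PP2,
          Matrix.mulVec_mulVec, Matrix.mulVec_mulVec, Matrix.mul_assoc,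
          Matrix.nonsing_inv_mul _ hu, Matrix.one_mulVec]
      rw [← h6, h]
    rw [mem_I_iff hB hW2 hIt]
    refine ⟨ll B c2 *ᵥ v, ?_⟩
    rw [h5, Matrix.mulVec_zero] at hy
    rw [← hy, eq_comm, sub_eq_zero] at hv'
    exact hv'.symm
  · obtain ⟨w, rfl⟩ := (mem_I_iff hB hW2 hIt v).1 h
    rw [PP1, Matrix.mulVec_mulVec, Matrix.mul_assoc, Matrix.mul_assoc, Matrix.sub_mul,
      Matrix.one_mul, Matrix.mul_assoc B, ll_B hW2, Matrix.mul_one, sub_self, Matrix.mul_zero,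
      Matrix.mul_zero, Matrix.zero_mulVec]

end

/-- existence of the coordinates -/
theorem exists_minors {K I : Submodule ℂ (Fin m → ℂ)} (hIK : I ≤ K)
    {A : Matrix (Fin s) (Fin m) ℂ} {B : Matrix (Fin m) (Fin t) ℂ}
    (hA : ∀ v ∈ K, A *ᵥ v = 0) (hB : ∀ w, B *ᵥ w ∈ I)
    (hAi : LinearIndependent ℂ fun a => A a) (hBi : LinearIndependent ℂ fun b => Bᵀ b)
    (hKs : m ≤ finrank ℂ K + s) (hd : finrank ℂ K = d + t) :
    ∃ (c : Fin s → Fin m) (c2 : Fin t → Fin m) (c1 u : Fin d → Fin m),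
      (A * Ec c).det ≠ 0 ∧ ((Ec c2)ᵀ * B).det ≠ 0 ∧
      ((Ec c1)ᵀ * (Th A B c c2 * Ec u)).det ≠ 0 := by
  classical
  obtain ⟨c, hc⟩ := (Vale.Agent.P002.H85.indep_iff_minor _).1 hAi
  obtain ⟨c2, hc2⟩ := (Vale.Agent.P002.H85.indep_iff_minor _).1 hBi
  have hW : (A * Ec c).det ≠ 0 := by
    convert hc using 2
    ext a b
    rw [mul_Ec, Matrix.of_apply]
  have hW2 : ((Ec c2)ᵀ * B).det ≠ 0 := by
    rw [← Matrix.det_transpose]
    convert hc2 using 2
    ext a b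
    rw [Matrix.transpose_apply, Ec_mul, Matrix.of_apply, Matrix.transpose_apply]
  have h1 := range_Th hIK hA hB hW hW2 hKs
  have h2 : Submodule.span ℂ (Set.range (Th A B c c2)ᵀ) = QQ K B c2 := by
    rw [← h1, Matrix.range_mulVecLin]
    rfl
  obtain ⟨f, hf, hfi⟩ : ∃ f : Fin d → (Fin m → ℂ), (∀ i, f i ∈ Set.range (Th A B c c2)ᵀ) ∧
      LinearIndependent ℂ f := by
    obtain ⟨f, hf, -, hfi⟩ := exists_fun_fin (Set.range (Th A B c c2)ᵀ) d
      (by rw [h2, finrank_QQ hIK hB hW2 hd])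
    exact ⟨f, hf, hfi⟩
  choose u hu using hf
  obtain ⟨c1, hc1⟩ := (Vale.Agent.P002.H85.indep_iff_minor _).1 hfi
  refine ⟨c, c2, c1, u, hW, hW2, ?_⟩
  rw [← Matrix.det_transpose]
  convert hc1 using 2
  ext a b
  rw [Matrix.transpose_apply, Ec_mul, mul_Ec, Matrix.of_apply, ← hu a, Matrix.transpose_apply]

end Vale.Agent.P002.H85F
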