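import Vale.Agent.P002.H85.Fam.Sub3
import Vale.Agent.P002.H85.Fam.Kummer
import Vale.Agent.P002.H85.Fam.Uni
import Vale.Agent.P002.H2.MI

/-!
# Built families and the density theorem
-/

namespace Vale.Agent.P002.H85F

open Matrix Vale.Agent.P002R.Orb Vale.Agent.P002.H326J Vale.Agent.P002.H252 Vale.Agent.P002.H85
  Vale.Agent.P002.H2

/-- **Built families have dense bounded points over one number field.** -/
theorem Built.good {E : Type} {T : Set (E → ℂ)} (h : Built T) : Good T := by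
  induction h with
  | typed R r s w C hC k D hD =>
    obtain ⟨L, hL, h⟩ := main_multi r w C hC k D hD
    exact good_of_rep h
  | rep T L hL h => exact good_of_rep h
  | chars G => exact Good.chars G
  | affine E => exact good_univ E
  | point L hL x hx => exact Good.single hx
  | prod _ _ h h' => exact h.prod h'
  | union _ _ h h' => exact h.union h'
  | poly _ Φ D hD h => exact h.poly Φ D hD
  | sub _ S hS d h => exact h.sub S hS d
  | kummer _ u D hD n hn hu h => exact h.kummer u D hD hn hu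
  | opn _ hTT ho h => exact h.opn hTT ho
  | clos _ hs hd h => exact h.clos hs hd

/-- **The density theorem for sets covered by good families and typed points.** -/
theorem typed_or_good {ι : Type} [Finite ι] {R : Set (FreeGroup ι)} {r s : ℕ}
    {w : Fin s → FreeGroup ι} {C : Fin s → SpecialLinearGroup (Fin r) ℂ}
    (hC : ∀ j z, IsEigenvalue (C j) z → ∃ n : ℕ, 0 < n ∧ z ^ n = 1)
    (P : Set (MvPolynomial (ι × Fin r × Fin r) ℂ))
    (T : ℕ → Set (FreeGroup ι × Fin r × Fin r → ℂ)) (hT : ∀ n, Good (T n))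
    (hTY : ∀ n, T n ⊆ pt '' YW R w C)
    (B : ℕ → Set (MvPolynomial (ι × Fin r × Fin r) ℂ))
    (hB : ∀ n, IsDenseIn (OpenIn (OpenIn (YW R w C) P) (B n)) (OpenIn (YW R w C) P))
    (hcov : ∀ X ∈ OpenIn (YW R w C) P, (∀ n, ∃ F ∈ B n, value F X ≠ 0) →
      IsTyped R w X ∨
        ∃ n, ∃ g : SpecialLinearGroup (Fin r) ℂ, pt (fun p => g * X p * g⁻¹) ∈ T n) :
    ∃ L : IntermediateField ℚ ℂ, FiniteDimensional ℚ L ∧ IsDense R L (OpenIn (YW R w C) P) := by
  have hc := (dataSet_countable R w).to_subtype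
  obtain ⟨E, hE⟩ : ∃ E : ℕ → Σ k : ℕ, (Fin k → dataSet R w), Function.Surjective E := by
    have : Nonempty (Σ k : ℕ, (Fin k → dataSet R w)) := ⟨⟨0, fun a => a.elim0⟩⟩
    exact exists_surjective_nat _
  obtain ⟨T', hT'1, hT'2⟩ : ∃ T' : ℕ → Set (FreeGroup ι × Fin r × Fin r → ℂ),
      (∀ n, T' (2 * n) = T n) ∧ ∀ n, T' (2 * n + 1) =
        pt '' YMulti R w C (E n).1 (fun a => ((E n).2 a).1) := by
    obtain ⟨T'', hT''⟩ : ∃ T'' : ℕ → Set (FreeGroup ι × Fin r × Fin r → ℂ), ∀ n, T'' n =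
        pt '' YMulti R w C (E n).1 (fun a => ((E n).2 a).1) := ⟨_, fun n => rfl⟩
    refine ⟨fun n => if n % 2 = 0 then T (n / 2) else T'' (n / 2), fun n => ?_, fun n => ?_⟩
    · have h1 : 2 * n % 2 = 0 := by omega
      have h2 : 2 * n / 2 = n := by omega
      simp only [h1, h2, if_true]
    · have h1 : (2 * n + 1) % 2 ≠ 0 := by omega
      have h2 : (2 * n + 1) / 2 = n := by omega
      rw [← hT'']
      simp only [h1, h2, if_false]
  refine cover_main P T' (fun n => ?_) (fun n => ?_) B hB fun X hX hXB => ?_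
  · rcases Nat.even_or_odd' n with ⟨m, rfl | rfl⟩
    · rw [hT'1]
      exact hT m
    · rw [hT'2]
      obtain ⟨L, hL, h⟩ := main_multi r w C hC (E m).1 (fun a => ((E m).2 a).1)
        fun a => ((E m).2 a).2.1
      exact good_of_rep h
  · rcases Nat.even_or_odd' n with ⟨m, rfl | rfl⟩
    · rw [hT'1]
      exact hTY m
    · rw [hT'2]
      exact Set.image_mono fun X hX => hX.1
  · rcases hcov X hX hXB with h | ⟨n, g, hg⟩
    · obtain ⟨k, U, h1, h2, h3⟩ := exists_decomp_X X hX.1.1.2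
      have h4 : ∀ a, ∃ D ∈ dataSet R w, HasType D X (U a) := fun a => by
        obtain ⟨D, hD, hDT⟩ := h (U a) (h1 a)
        exact exists_type R w X (U a) D hD hDT
      choose D hD hDT using h4
      obtain ⟨n, hn⟩ := hE ⟨k, fun a => ⟨D a, hD a⟩⟩
      refine ⟨2 * n + 1, 1, ?_⟩
      rw [hT'2, hn]
      refine ⟨X, ⟨hX.1, U, hDT, h2, h3⟩, ?_⟩
      congr 1
      funext p
      simp
    · exact ⟨2 * n, g, by rw [hT'1]; exact hg⟩

end Vale.Agent.P002.H85F
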