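import Vale.Agent.P002.H85.Fam.Basic

/-!
# Regular functions near a point of a family
-/

namespace Vale.Agent.P002.H85F

open MvPolynomial

variable {E : Type}

/-- `F` is a quotient of polynomials on `T` near `x₁`. -/
def Reg (T : Set (E → ℂ)) (x₁ : E → ℂ) (F : (E → ℂ) → ℂ) : Prop :=
  ∃ p q : MvPolynomial E ℂ, eval x₁ q ≠ 0 ∧ ∀ x ∈ T, eval x q ≠ 0 → F x = eval x p / eval x q

variable {T : Set (E → ℂ)} {x₁ : E → ℂ} {F G : (E → ℂ) → ℂ}

theorem Reg.poly (p : MvPolynomial E ℂ) : Reg T x₁ fun x => eval x p :=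
  ⟨p, 1, by rw [map_one]; exact one_ne_zero, fun x _ _ => by simp⟩

theorem Reg.const (c : ℂ) : Reg T x₁ fun _ => c :=
  ⟨C c, 1, by rw [map_one]; exact one_ne_zero, fun x _ _ => by simp⟩

theorem Reg.ev (p : MvPolynomial E ℤ) : Reg T x₁ fun x => ev x p := by
  simp_rw [ev_eq]
  exact Reg.poly _

theorem Reg.coord (e : E) : Reg T x₁ fun x => x e :=
  ⟨X e, 1, by rw [map_one]; exact one_ne_zero, fun x _ _ => by simp⟩

theorem Reg.add (hF : Reg T x₁ F) (hG : Reg T x₁ G) : Reg T x₁ fun x => F x + G x := by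
  obtain ⟨p, q, hq, h⟩ := hF
  obtain ⟨p', q', hq', h'⟩ := hG
  refine ⟨p * q' + p' * q, q * q', ?_, fun x hx hxq => ?_⟩
  · rw [map_mul]
    exact mul_ne_zero hq hq'
  · rw [map_mul] at hxq
    change F x + G x = _
    rw [h x hx (left_ne_zero_of_mul hxq), h' x hx (right_ne_zero_of_mul hxq)]
    simp only [map_add, map_mul]
    have h1 := left_ne_zero_of_mul hxq
    have h2 := right_ne_zero_of_mul hxq
    field_simp

theorem Reg.mul (hF : Reg T x₁ F) (hG : Reg T x₁ G) : Reg T x₁ fun x => F x * G x := by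
  obtain ⟨p, q, hq, h⟩ := hF
  obtain ⟨p', q', hq', h'⟩ := hG
  refine ⟨p * p', q * q', ?_, fun x hx hxq => ?_⟩
  · rw [map_mul]
    exact mul_ne_zero hq hq'
  · rw [map_mul] at hxq
    change F x * G x = _
    rw [h x hx (left_ne_zero_of_mul hxq), h' x hx (right_ne_zero_of_mul hxq)]
    simp only [map_mul]
    have h1 := left_ne_zero_of_mul hxq
    have h2 := right_ne_zero_of_mul hxq
    field_simp

theorem Reg.neg (hF : Reg T x₁ F) : Reg T x₁ fun x => -F x := by
  have h := (Reg.const (T := T) (x₁ := x₁) (-1)).mul hF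
  simpa using h

theorem Reg.sub (hF : Reg T x₁ F) (hG : Reg T x₁ G) : Reg T x₁ fun x => F x - G x := by
  have h := hF.add hG.neg
  simpa [sub_eq_add_neg] using h

theorem Reg.sum {κ : Type*} (s : Finset κ) {F : κ → (E → ℂ) → ℂ} (h : ∀ k ∈ s, Reg T x₁ (F k)) :
    Reg T x₁ fun x => ∑ k ∈ s, F k x := by
  classical
  induction s using Finset.induction_on with
  | empty => simpa using Reg.const (T := T) (x₁ := x₁) 0
  | insert a s ha ih =>
    simp_rw [Finset.sum_insert ha]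
    exact (h a (Finset.mem_insert_self _ _)).add
      (ih fun k hk => h k (Finset.mem_insert_of_mem hk))

theorem Reg.prod {κ : Type*} (s : Finset κ) {F : κ → (E → ℂ) → ℂ} (h : ∀ k ∈ s, Reg T x₁ (F k)) :
    Reg T x₁ fun x => ∏ k ∈ s, F k x := by
  classical
  induction s using Finset.induction_on with
  | empty => simpa using Reg.const (T := T) (x₁ := x₁) 1
  | insert a s ha ih =>
    simp_rw [Finset.prod_insert ha]
    exact (h a (Finset.mem_insert_self _ _)).mul
      (ih fun k hk => h k (Finset.mem_insert_of_mem hk))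

theorem Reg.pow (hF : Reg T x₁ F) (n : ℕ) : Reg T x₁ fun x => F x ^ n := by
  have h := Reg.prod (T := T) (x₁ := x₁) (Finset.range n) (F := fun _ => F) fun _ _ => hF
  simpa using h

theorem Reg.inv (hx : x₁ ∈ T) (hF : Reg T x₁ F) (h0 : F x₁ ≠ 0) :
    Reg T x₁ fun x => (F x)⁻¹ := by
  obtain ⟨p, q, hq, h⟩ := hF
  have hp : eval x₁ p ≠ 0 := fun h1 => h0 (by rw [h x₁ hx hq, h1, zero_div])
  refine ⟨q * q, p * q, ?_, fun x hx hxq => ?_⟩
  · rw [map_mul]
    exact mul_ne_zero hp hq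
  · rw [map_mul] at hxq
    change (F x)⁻¹ = _
    rw [h x hx (right_ne_zero_of_mul hxq)]
    simp only [map_mul]
    have h1 := left_ne_zero_of_mul hxq
    have h2 := right_ne_zero_of_mul hxq
    field_simp

theorem Reg.aeval {σ : Type*} (f : MvPolynomial σ ℂ) {G : σ → (E → ℂ) → ℂ}
    (h : ∀ s, Reg T x₁ (G s)) : Reg T x₁ fun x => eval (fun s => G s x) f := by
  simp_rw [eval_eq]
  exact Reg.sum _ fun m _ => (Reg.const _).mul (Reg.prod _ fun s _ => (h s).pow _)

theorem Reg.det {n : Type} [Fintype n] [DecidableEq n] {M : (E → ℂ) → Matrix n n ℂ}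
    (h : ∀ i j, Reg T x₁ fun x => M x i j) : Reg T x₁ fun x => (M x).det := by
  simp_rw [Matrix.det_apply']
  exact Reg.sum _ fun σ _ => (Reg.const _).mul (Reg.prod _ fun i _ => h _ _)

theorem Reg.matmul {m n l : Type} [Fintype n] {M : (E → ℂ) → Matrix m n ℂ}
    {N : (E → ℂ) → Matrix n l ℂ} (hM : ∀ i j, Reg T x₁ fun x => M x i j)
    (hN : ∀ i j, Reg T x₁ fun x => N x i j) (i : m) (j : l) :
    Reg T x₁ fun x => (M x * N x) i j := by
  simp_rw [Matrix.mul_apply]
  exact Reg.sum _ fun k _ => (hM _ _).mul (hN _ _)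

theorem Reg.matinv {n : Type} [Fintype n] [DecidableEq n] {M : (E → ℂ) → Matrix n n ℂ}
    (hx : x₁ ∈ T) (h : ∀ i j, Reg T x₁ fun x => M x i j) (h0 : (M x₁).det ≠ 0) (i j : n) :
    Reg T x₁ fun x => (M x)⁻¹ i j := by
  simp_rw [Matrix.inv_def, Ring.inverse_eq_inv', Matrix.smul_apply, smul_eq_mul,
    Matrix.adjugate_apply]
  refine ((Reg.det h).inv hx h0).mul (Reg.det fun a b => ?_)
  by_cases hab : a = j
  · subst hab
    simp_rw [Matrix.updateRow_self]
    exact Reg.const _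
  · simp_rw [Matrix.updateRow_ne hab]
    exact h _ _

/-- a nonzero regular function does not vanish near the point -/
theorem Reg.ne_zero (hx : x₁ ∈ T) (hF : Reg T x₁ F) (h0 : F x₁ ≠ 0) :
    ∃ g : MvPolynomial E ℂ, eval x₁ g ≠ 0 ∧ ∀ x ∈ T, eval x g ≠ 0 → F x ≠ 0 := by
  obtain ⟨p, q, hq, h⟩ := hF
  have hp : eval x₁ p ≠ 0 := fun h1 => h0 (by rw [h x₁ hx hq, h1, zero_div])
  refine ⟨p * q, ?_, fun x hx hxq => ?_⟩
  · rw [map_mul]
    exact mul_ne_zero hp hq
  · rw [map_mul] at hxq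
    rw [h x hx (right_ne_zero_of_mul hxq)]
    exact div_ne_zero (left_ne_zero_of_mul hxq) (right_ne_zero_of_mul hxq)

/-- the identity theorem -/
theorem Reg.vanish {S : Set (E → ℂ)} (hd : ZDense S T) (hST : S ⊆ T) (hx : x₁ ∈ T)
    (hF : Reg T x₁ F)
    (h : ∃ g : MvPolynomial E ℂ, eval x₁ g ≠ 0 ∧ ∀ x ∈ S, eval x g ≠ 0 → F x = 0) :
    F x₁ = 0 := by
  obtain ⟨p, q, hq, hpq⟩ := hF
  obtain ⟨g, hg, hgS⟩ := h
  have h1 := hd (p * q * g) (fun x hxS => by
    rw [map_mul, map_mul]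
    by_cases h2 : eval x g = 0
    · rw [h2, mul_zero]
    by_cases h3 : eval x q = 0
    · rw [h3, mul_zero, zero_mul]
    have h4 := hpq x (hST hxS) h3
    rw [hgS x hxS h2, eq_comm, div_eq_zero_iff] at h4
    rw [h4.resolve_right h3, zero_mul, zero_mul]) x₁ hx
  rw [map_mul, map_mul] at h1
  have h2 : eval x₁ p = 0 := by
    rcases mul_eq_zero.1 h1 with h1 | h1
    · exact (mul_eq_zero.1 h1).resolve_right hq
    · exact absurd h1 hg
  rw [hpq x₁ hx hq, h2, zero_div]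

/-- entries of inverse matrices -/
theorem inv_mem {n : Type} [Fintype n] [DecidableEq n] {L : IntermediateField ℚ ℂ}
    {M : Matrix n n ℂ} (h : ∀ i j, M i j ∈ L) (i j : n) : M⁻¹ i j ∈ L := by
  obtain ⟨M', hM'⟩ : ∃ M' : Matrix n n L, (algebraMap L ℂ).mapMatrix M' = M :=
    ⟨Matrix.of fun i j => ⟨M i j, h i j⟩, by ext i j; rfl⟩
  have h1 : M⁻¹ = (algebraMap L ℂ).mapMatrix M'⁻¹ := by
    rw [← hM', Matrix.inv_def, Matrix.inv_def, Ring.inverse_eq_inv', Ring.inverse_eq_inv',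
      ← RingHom.map_det, ← RingHom.map_adjugate, ← map_inv₀]
    ext i j
    simp [RingHom.mapMatrix_apply, Matrix.map_apply]
  rw [h1, RingHom.mapMatrix_apply, Matrix.map_apply]
  exact (M'⁻¹ i j).2

theorem mul_mem' {m n l : Type} [Fintype n] {L : IntermediateField ℚ ℂ}
    {M : Matrix m n ℂ} {N : Matrix n l ℂ} (hM : ∀ i j, M i j ∈ L) (hN : ∀ i j, N i j ∈ L)
    (i : m) (j : l) : (M * N) i j ∈ L := by
  rw [Matrix.mul_apply]
  exact sum_mem fun k _ => mul_mem (hM _ _) (hN _ _)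

/-- elements of a number field have denominators -/
theorem exists_den {L : IntermediateField ℚ ℂ} [FiniteDimensional ℚ L] {κ : Type} [Finite κ]
    (c : κ → ℂ) (hc : ∀ k, c k ∈ L) : ∃ N : ℕ, N ≠ 0 ∧ ∀ k, IsIntegral ℤ ((N : ℂ) * c k) := by
  classical
  have := Fintype.ofFinite κ
  have h1 : ∀ k, ∃ N : ℕ, N ≠ 0 ∧ IsIntegral ℤ ((N : ℂ) * c k) := by
    intro k
    have h2 : IsAlgebraic ℤ (c k) := by
      have h3 : IsAlgebraic ℚ (⟨c k, hc k⟩ : L) := Algebra.IsAlgebraic.isAlgebraic _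
      have h4 : IsAlgebraic ℚ (c k) := h3.algebraMap (A := ℂ)
      exact (IsFractionRing.isAlgebraic_iff ℤ ℚ ℂ).2 h4
    obtain ⟨y, hy, hyc⟩ := h2.exists_integral_multiple
    refine ⟨y.natAbs, Int.natAbs_ne_zero.2 hy, ?_⟩
    rw [zsmul_eq_mul] at hyc
    rcases Int.natAbs_eq y with h5 | h5
    · have h6 : ((y.natAbs : ℕ) : ℂ) = (y : ℂ) := by
        conv_rhs => rw [h5]
        simp
      rw [h6]
      exact hyc
    · have h6 : ((y.natAbs : ℕ) : ℂ) = -(y : ℂ) := by
        conv_rhs => rw [h5]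
        simp
      rw [h6, neg_mul]
      exact hyc.neg
  choose N hN hNc using h1
  refine ⟨∏ k, N k, Finset.prod_ne_zero_iff.2 fun k _ => hN k, fun k => ?_⟩
  rw [← Finset.mul_prod_erase _ _ (Finset.mem_univ k), Nat.cast_mul, mul_right_comm, mul_comm]
  refine IsIntegral.mul ?_ (hNc k)
  have h4 : ∀ n : ℕ, (n : ℂ) = algebraMap ℤ ℂ (n : ℤ) := fun n => by simp
  rw [h4]
  exact isIntegral_algebraMap

/-- natural points are dense in affine space -/
theorem good_univ (E' : Type) : Good (Set.univ : Set (E' → ℂ)) := by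
  refine ⟨⊥, inferInstance, fun f hf x _ => ?_⟩
  have h1 : f = 0 := by
    refine MvPolynomial.funext_set (fun _ => Set.range (Nat.cast : ℕ → ℂ))
      (fun _ => Set.infinite_range_of_injective Nat.cast_injective) fun x hx => ?_
    rw [map_zero]
    have h2 : ∀ e, ∃ n : ℕ, (n : ℂ) = x e := fun e => hx e trivial
    choose n hn using h2
    refine hf x ⟨trivial, fun e => ?_, 1, one_ne_zero, fun e => ?_⟩
    · rw [← hn]
      exact natCast_mem _ _
    · rw [← hn, Nat.cast_one, one_mul]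
      have h4 : (n e : ℂ) = algebraMap ℤ ℂ (n e : ℤ) := by simp
      rw [h4]
      exact isIntegral_algebraMap
  rw [h1, map_zero]

end Vale.Agent.P002.H85F
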