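import Vale.Agent.P002.H85.Fam.Basic
import Vale.Agent.P002.H85.Final
import Vale.Agent.P002.H252.Ba7
import Vale.Agent.P002.R2.H238.BGa

/-!
# Bounded representations are integral points
-/

namespace Vale.Agent.P002.H85F

open Matrix Vale.Agent.P002R.Orb Vale.Agent.P002.H326J Vale.Agent.P002.H252 Vale.Agent.P002.H85
  NumberField

variable {ι : Type} {r : ℕ}

/-- polynomials in the entries of words are polynomials in the entries of the generators -/
theorem exists_value (f : MvPolynomial (FreeGroup ι × Fin r × Fin r) ℂ) :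
    ∃ F : MvPolynomial (ι × Fin r × Fin r) ℂ, ∀ X : ι → SpecialLinearGroup (Fin r) ℂ,
      value F X = MvPolynomial.eval (pt X) f := by
  have h1 := fun x : FreeGroup ι => exists_word_Z (ι := ι) (r := r) x
  choose M hM using h1
  refine ⟨MvPolynomial.bind₁ (fun e => MvPolynomial.map (Int.castRingHom ℂ)
    (M e.1 e.2.1 e.2.2)) f, fun X => ?_⟩
  have h2 : value (MvPolynomial.bind₁ (fun e => MvPolynomial.map (Int.castRingHom ℂ)
      (M e.1 e.2.1 e.2.2)) f) X = MvPolynomial.aeval (coords X) (MvPolynomial.bind₁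
        (fun e => MvPolynomial.map (Int.castRingHom ℂ) (M e.1 e.2.1 e.2.2)) f) := rfl
  rw [h2, MvPolynomial.aeval_bind₁]
  have h3 : (fun e : FreeGroup ι × Fin r × Fin r => (MvPolynomial.aeval (coords X))
      (MvPolynomial.map (Int.castRingHom ℂ) (M e.1 e.2.1 e.2.2))) = pt X := by
    funext e
    rw [pt, hM, value]
    have h4 : (MvPolynomial.aeval (coords X)) (MvPolynomial.map (Int.castRingHom ℂ)
        (M e.1 e.2.1 e.2.2)) = MvPolynomial.eval (coords X) (MvPolynomial.map (Int.castRingHom ℂ)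
        (M e.1 e.2.1 e.2.2)) := rfl
    rw [h4, MvPolynomial.eval_map]
    rfl
  rw [h3]
  rfl

/-- polynomials in the entries of the generators are polynomials in the entries of words -/
theorem eval_pt (F : MvPolynomial (ι × Fin r × Fin r) ℂ) (X : ι → SpecialLinearGroup (Fin r) ℂ) :
    MvPolynomial.eval (pt X) (MvPolynomial.rename
      (fun q : ι × Fin r × Fin r => (FreeGroup.of q.1, q.2)) F) = value F X := by
  rw [MvPolynomial.eval_rename, Vale.Agent.P002.H252.value_eq]
  congr 1
  have h : (pt X ∘ fun q : ι × Fin r × Fin r => (FreeGroup.of q.1, q.2)) = coords X := by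
    funext q
    rw [Function.comp_apply, pt, FreeGroup.lift_apply_of]
    rfl
  rw [h]

/-- families with dense integral representations give families with dense bounded points -/
theorem good_of_rep {T : Set (ι → SpecialLinearGroup (Fin r) ℂ)} {L : IntermediateField ℚ ℂ}
    [FiniteDimensional ℚ L] (h : IsDenseRep L T) : Good (pt '' T) := by
  refine ⟨L, inferInstance, fun f hf => ?_⟩
  rintro _ ⟨X, hX, rfl⟩
  obtain ⟨F, hF⟩ := exists_value f
  rw [← hF]
  refine h F (fun Z hZ hZL => ?_) X hX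
  rw [hF]
  have h1 : ∀ e, pt Z e ∈ L ∧ IsIntegral ℤ (pt Z e) := by
    intro e
    obtain ⟨M, hM⟩ := exists_word_Z (ι := ι) (r := r) e.1
    rw [pt, hM]
    have h2 : value (M e.2.1 e.2.2) Z ∈ Vale.Agent.P002.H306.OI L := by
      rw [value, MvPolynomial.eval₂_eq]
      refine sum_mem fun m _ => mul_mem ?_ (prod_mem fun q _ => pow_mem ?_ _)
      · rw [eq_intCast]
        exact intCast_mem _ _
      · exact Vale.Agent.P002.H306.mem_OI_iff.2 (hZL _ _ _)
    exact h2
  refine hf _ ⟨⟨Z, hZ, rfl⟩, fun e => (h1 e).1, 1, one_ne_zero, fun e => ?_⟩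
  rw [Nat.cast_one, one_mul]
  exact (h1 e).2

/-- matrices with bounded powers are integral -/
theorem integral_matrix {L : IntermediateField ℚ ℂ} [FiniteDimensional ℚ L]
    {M : Matrix (Fin r) (Fin r) ℂ} {N : ℕ} (hN : N ≠ 0) (hL : ∀ k : ℕ, ∀ i j, (M ^ k) i j ∈ L)
    (h : ∀ k : ℕ, ∀ i j, IsIntegral ℤ ((N : ℂ) * (M ^ k) i j)) : IsIntegral ℤ M := by
  have hNF : NumberField L := { }
  have hN0 : (N : ℂ) ≠ 0 := Nat.cast_ne_zero.2 hN
  let φ : (Fin r → Fin r → 𝓞 L) →ₗ[ℤ] Matrix (Fin r) (Fin r) ℂ :=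
    { toFun := fun a => Matrix.of fun i j => (N : ℂ)⁻¹ * ((a i j : L) : ℂ)
      map_add' := fun a b => by
        ext i j
        simp only [Matrix.of_apply, Pi.add_apply, Matrix.add_apply, map_add,
          IntermediateField.coe_add, mul_add]
      map_smul' := fun c a => by
        ext i j
        simp only [Matrix.of_apply, Pi.smul_apply, Matrix.smul_apply, zsmul_eq_mul, map_mul,
          map_intCast, IntermediateField.coe_mul, RingHom.id_apply]
        have h1 : (((c : L)) : ℂ) = (c : ℂ) := rfl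
        rw [h1]
        ring }
  refine Vale.Agent.P002.R2.H238.BG.isIntegral_of_pow_mem (LinearMap.range φ) ?_ M fun k => ?_
  · exact Module.Finite.iff_fg.1 inferInstance
  · refine ⟨fun i j => ⟨⟨(N : ℂ) * (M ^ k) i j, mul_mem (natCast_mem _ _) (hL k i j)⟩, ?_⟩, ?_⟩
    · exact (isIntegral_algebraMap_iff (algebraMap L ℂ).injective).1 (h k i j)
    · ext i j
      change (N : ℂ)⁻¹ * ((N : ℂ) * (M ^ k) i j) = _
      rw [inv_mul_cancel_left₀ hN0]

theorem trace_integral {L : IntermediateField ℚ ℂ} [FiniteDimensional ℚ L]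
    {X : ι → SpecialLinearGroup (Fin r) ℂ} (h : Bdd L (pt X)) (x : FreeGroup ι) :
    IsIntegral ℤ (FreeGroup.lift X x).1.trace := by
  obtain ⟨hL, N, hN, hNX⟩ := h
  have hpow : ∀ k : ℕ, (FreeGroup.lift X x).1 ^ k = (FreeGroup.lift X (x ^ k)).1 := by
    intro k
    rw [map_pow, Vale.Agent.P002.R2.H238.BG.val_pow]
  refine Vale.Agent.P002.R2.H238.BG.isIntegral_trace (integral_matrix (L := L) hN
    (fun k i j => ?_) fun k i j => ?_)
  · rw [hpow]
    exact hL (x ^ k, i, j)
  · rw [hpow]
    exact hNX (x ^ k, i, j)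

/-- **bounded semisimple representations are integral points** -/
theorem intPoint_of_bdd [Finite ι] {R : Set (FreeGroup ι)} {L : IntermediateField ℚ ℂ}
    [FiniteDimensional ℚ L] {X : ι → SpecialLinearGroup (Fin r) ℂ} (hX : X ∈ YNone R r)
    (h : Bdd L (pt X)) : IsIntegralPoint R L X := by
  obtain ⟨L', -, hL'⟩ := (integral_iff hX).1 fun x => trace_integral h x
  intro F hF
  obtain ⟨a, ha⟩ := hL' F hF
  rw [← Vale.Agent.P002.H306.mem_OI_iff]
  refine ⟨?_, ?_⟩
  · rw [value, MvPolynomial.eval₂_eq]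
    refine sum_mem fun m _ => mul_mem ?_ (prod_mem fun q _ => pow_mem ?_ _)
    · rw [eq_intCast]
      exact intCast_mem _ _
    · have h1 := h.1 (FreeGroup.of q.1, q.2)
      rw [pt, FreeGroup.lift_apply_of] at h1
      exact h1
  · rw [ha]
    exact (isIntegral_algebraMap_iff (algebraMap L' ℂ).injective).2 a.2

end Vale.Agent.P002.H85F
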