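import Vale.Agent.P002.H85.Fam.Reg
import Vale.Agent.P002.H85.Fam.Lin

/-!
# Subquotients cut out by matrices of integral polynomials
-/

namespace Vale.Agent.P002.H85F

open MvPolynomial Matrix Module

variable {E G : Type}

theorem SubData.mem_ker (S : SubData E G) {x : E → ℂ} {v : Fin S.m → ℂ} :
    v ∈ S.ker x ↔ ∀ k, ∑ i, ev x (S.A k i) * v i = 0 := by
  rw [SubData.ker, Submodule.mem_iInf]
  refine forall_congr' fun k => ?_
  rw [LinearMap.mem_ker, LinearMap.sum_apply]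
  rfl

/-- all entries regular -/
def RegM {m n : Type} (T : Set (E → ℂ)) (x₁ : E → ℂ) (M : (E → ℂ) → Matrix m n ℂ) : Prop :=
  ∀ i j, Reg T x₁ fun x => M x i j

section RegM

variable {T : Set (E → ℂ)} {x₁ : E → ℂ} {m n l : Type}

theorem RegM.const (M : Matrix m n ℂ) : RegM T x₁ fun _ => M := fun _ _ => Reg.const _

theorem RegM.mul [Fintype n] {M : (E → ℂ) → Matrix m n ℂ} {N : (E → ℂ) → Matrix n l ℂ}
    (hM : RegM T x₁ M) (hN : RegM T x₁ N) : RegM T x₁ fun x => M x * N x :=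
  fun i j => Reg.matmul hM hN i j

theorem RegM.sub {M N : (E → ℂ) → Matrix m n ℂ}
    (hM : RegM T x₁ M) (hN : RegM T x₁ N) : RegM T x₁ fun x => M x - N x :=
  fun i j => (hM i j).sub (hN i j)

theorem RegM.inv [Fintype n] [DecidableEq n] {M : (E → ℂ) → Matrix n n ℂ} (hx : x₁ ∈ T)
    (hM : RegM T x₁ M) (h0 : (M x₁).det ≠ 0) : RegM T x₁ fun x => (M x)⁻¹ :=
  fun i j => Reg.matinv hx hM h0 i j

end RegM

/-- all entries in `L` -/
def MemM {m n : Type} (L : IntermediateField ℚ ℂ) (M : Matrix m n ℂ) : Prop := ∀ i j, M i j ∈ L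

section MemM

variable {L : IntermediateField ℚ ℂ} {m n l : Type}

theorem MemM.mul [Fintype n] {M : Matrix m n ℂ} {N : Matrix n l ℂ}
    (hM : MemM L M) (hN : MemM L N) : MemM L (M * N) := fun i j => mul_mem' hM hN i j

theorem MemM.sub {M N : Matrix m n ℂ} (hM : MemM L M) (hN : MemM L N) : MemM L (M - N) :=
  fun i j => sub_mem (hM i j) (hN i j)

theorem MemM.inv [Fintype n] [DecidableEq n] {M : Matrix n n ℂ} (hM : MemM L M) :
    MemM L M⁻¹ := fun i j => inv_mem hM i j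

theorem MemM.one [DecidableEq n] : MemM L (1 : Matrix n n ℂ) := by
  intro i j
  rw [Matrix.one_apply]
  split_ifs
  · exact one_mem _
  · exact zero_mem _

theorem MemM.Ec {m s : ℕ} (c : Fin s → Fin m) : MemM L (Ec c) := by
  intro i j
  rw [H85F.Ec, Matrix.of_apply]
  split_ifs
  · exact one_mem _
  · exact zero_mem _

theorem MemM.transpose {M : Matrix m n ℂ} (hM : MemM L M) : MemM L Mᵀ := fun i j => hM j i

end MemM

section loc

variable {T : Set (E → ℂ)} {x₁ : E → ℂ} {m s t d : ℕ} {A : (E → ℂ) → Matrix (Fin s) (Fin m) ℂ}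
  {B : (E → ℂ) → Matrix (Fin m) (Fin t) ℂ} (hx : x₁ ∈ T) (hA : RegM T x₁ A) (hB : RegM T x₁ B)
  {c : Fin s → Fin m} {c2 : Fin t → Fin m} {c1 u : Fin d → Fin m}
  (hW : (A x₁ * Ec c).det ≠ 0) (hW2 : ((Ec c2)ᵀ * B x₁).det ≠ 0)
  (hG : ((Ec c1)ᵀ * (Th (A x₁) (B x₁) c c2 * Ec u)).det ≠ 0)

include hx hA hB hW hW2

theorem reg_Bl : RegM T x₁ fun x => 1 - B x * ll (B x) c2 :=
  (RegM.const 1).sub (hB.mul ((((RegM.const _).mul hB).inv hx hW2).mul (RegM.const _)))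

theorem reg_Th : RegM T x₁ fun x => Th (A x) (B x) c c2 :=
  (reg_Bl hx hA hB hW hW2).mul ((RegM.const 1).sub
    (((RegM.const _).mul ((hA.mul (RegM.const _)).inv hx hW)).mul hA))

theorem reg_P2 : RegM T x₁ fun x => PP2 (A x) (B x) c c2 u :=
  (reg_Th hx hA hB hW hW2).mul (RegM.const _)

include hG in
theorem reg_P1 : RegM T x₁ fun x => PP1 (A x) (B x) c c2 c1 u :=
  (((RegM.const _).mul ((reg_Th hx hA hB hW hW2).mul (RegM.const _))).inv hx hG).mul
    ((RegM.const _).mul (reg_Bl hx hA hB hW hW2))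

include hG in
/-- the minors do not vanish near the point -/
theorem near : ∃ g : MvPolynomial E ℂ, eval x₁ g ≠ 0 ∧ ∀ x ∈ T, eval x g ≠ 0 →
    (A x * Ec c).det ≠ 0 ∧ ((Ec c2)ᵀ * B x).det ≠ 0 ∧
    ((Ec c1)ᵀ * (Th (A x) (B x) c c2 * Ec u)).det ≠ 0 := by
  obtain ⟨g1, h1, h1'⟩ := (Reg.det (hA.mul (RegM.const (Ec c)))).ne_zero hx hW
  obtain ⟨g2, h2, h2'⟩ := (Reg.det ((RegM.const (Ec c2)ᵀ).mul hB)).ne_zero hx hW2
  obtain ⟨g3, h3, h3'⟩ := (Reg.det ((RegM.const (Ec c1)ᵀ).mul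
    ((reg_Th hx hA hB hW hW2).mul (RegM.const (Ec u))))).ne_zero hx hG
  refine ⟨g1 * g2 * g3, ?_, fun x hxT hxg => ?_⟩
  · rw [map_mul, map_mul]
    exact mul_ne_zero (mul_ne_zero h1 h2) h3
  · rw [map_mul, map_mul] at hxg
    have h4 := left_ne_zero_of_mul hxg
    exact ⟨h1' x hxT (left_ne_zero_of_mul h4), h2' x hxT (right_ne_zero_of_mul h4),
      h3' x hxT (right_ne_zero_of_mul hxg)⟩

end loc

section mem

variable {L : IntermediateField ℚ ℂ} {m s t d : ℕ} {A : Matrix (Fin s) (Fin m) ℂ}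
  {B : Matrix (Fin m) (Fin t) ℂ} (hA : MemM L A) (hB : MemM L B)
  {c : Fin s → Fin m} {c2 : Fin t → Fin m} {c1 u : Fin d → Fin m}

include hB in
theorem mem_Bl : MemM L (1 - B * ll B c2) :=
  MemM.one.sub (hB.mul (((MemM.Ec _).transpose.mul hB).inv.mul (MemM.Ec _).transpose))

include hA hB

theorem mem_Th : MemM L (Th A B c c2) :=
  (mem_Bl hB).mul (MemM.one.sub (((MemM.Ec _).mul (hA.mul (MemM.Ec _)).inv).mul hA))

theorem mem_P2 : MemM L (PP2 A B c c2 u) := (mem_Th hA hB).mul (MemM.Ec _)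

theorem mem_P1 : MemM L (PP1 A B c c2 c1 u) :=
  ((MemM.Ec _).transpose.mul ((mem_Th hA hB).mul (MemM.Ec _))).inv.mul
    ((MemM.Ec _).transpose.mul (mem_Bl hB))

end mem

end Vale.Agent.P002.H85F
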