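import Vale.Agent.P002.H85.Fam.Sub

/-!
# Subquotients of good families are good
-/

namespace Vale.Agent.P002.H85F

open MvPolynomial Matrix Module

variable {E G : Type}

/-- coordinates near a point -/
structure Chart (S : SubData E G) (T : Set (E → ℂ)) (x₁ : E → ℂ) (d : ℕ) where
  /-- the projection -/
  P1 : (E → ℂ) → Matrix (Fin d) (Fin S.m) ℂ
  /-- the section -/
  P2 : (E → ℂ) → Matrix (Fin S.m) (Fin d) ℂ
  /-- the neighbourhood -/
  g : MvPolynomial E ℂ
  reg1 : RegM T x₁ P1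
  reg2 : RegM T x₁ P2
  mem1 : ∀ (L : IntermediateField ℚ ℂ) (x : E → ℂ), (∀ e, x e ∈ L) → MemM L (P1 x)
  mem2 : ∀ (L : IntermediateField ℚ ℂ) (x : E → ℂ), (∀ e, x e ∈ L) → MemM L (P2 x)
  g0 : eval x₁ g ≠ 0
  near : ∀ x ∈ T, eval x g ≠ 0 → S.Gen T x ∧ (∀ y, P2 x *ᵥ y ∈ S.ker x) ∧ P1 x * P2 x = 1 ∧
    ∀ v ∈ S.ker x, P1 x *ᵥ v = 0 ↔ v ∈ S.im x

theorem exists_chart (S : SubData E G) {T : Set (E → ℂ)} (hv : ∀ x ∈ T, S.im x ≤ S.ker x)
    {x₁ : E → ℂ} (hx₁ : x₁ ∈ T) (hgen : S.Gen T x₁) {d : ℕ}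
    (hd : finrank ℂ (S.ker x₁) = d + finrank ℂ (S.im x₁)) : Nonempty (Chart S T x₁ d) := by
  classical
  -- the rows
  obtain ⟨s, hs⟩ : ∃ s, finrank ℂ (Submodule.span ℂ
      (Set.range fun k i => ev x₁ (S.A k i))) = s := ⟨_, rfl⟩
  obtain ⟨f, hf, hfs, hfi⟩ := exists_fun_fin (Set.range fun k i => ev x₁ (S.A k i)) s hs
  choose J hJ using hf
  obtain ⟨A, hA⟩ : ∃ A : (E → ℂ) → Matrix (Fin s) (Fin S.m) ℂ,
      ∀ x a i, A x a i = ev x (S.A (J a) i) := ⟨fun x => Matrix.of fun a i => ev x (S.A (J a) i),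
      fun _ _ _ => rfl⟩
  have hA1 : A x₁ = Matrix.of f := by
    ext a i
    rw [hA, Matrix.of_apply, ← hJ a]
  have hAK : ∀ x, ∀ v ∈ S.ker x, A x *ᵥ v = 0 := by
    intro x v hv
    funext a
    have h1 := S.mem_ker.1 hv (J a)
    rw [Matrix.mulVec, dotProduct, Pi.zero_apply, ← h1]
    exact Finset.sum_congr rfl fun i _ => by rw [hA]
  have hKs : S.m ≤ finrank ℂ (S.ker x₁) + s := by
    have h2 := LinearMap.finrank_range_add_finrank_ker (A x₁).mulVecLin
    rw [finrank_fin_fun] at h2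
    have h3 : finrank ℂ (LinearMap.range (A x₁).mulVecLin) ≤ s := by
      have h4 := Submodule.finrank_le (LinearMap.range (A x₁).mulVecLin)
      rwa [finrank_fin_fun] at h4
    have h5 : finrank ℂ (LinearMap.ker (A x₁).mulVecLin) ≤ finrank ℂ (S.ker x₁) := by
      refine Submodule.finrank_mono fun v hv => S.mem_ker.2 fun k => ?_
      rw [LinearMap.mem_ker, Matrix.mulVecLin_apply] at hv
      have h6 : (fun i => ev x₁ (S.A k i)) ∈ Submodule.span ℂ (Set.range f) := by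
        rw [hfs]
        exact Submodule.subset_span ⟨k, rfl⟩
      have h7 : ∀ w ∈ Submodule.span ℂ (Set.range f), ∑ i, w i * v i = 0 := by
        intro w hw
        induction hw using Submodule.span_induction with
        | mem w hw =>
          obtain ⟨a, rfl⟩ := hw
          have h8 := congrFun hv a
          rw [hA1] at h8
          exact h8
        | zero => simp
        | add w w' _ _ h h' =>
          simp only [Pi.add_apply, add_mul, Finset.sum_add_distrib]
          rw [h, h', add_zero]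
        | smul c w _ h =>
          have h8 : ∀ i, (c • w) i * v i = c * (w i * v i) := fun i => by
            rw [Pi.smul_apply, smul_eq_mul]
            ring
          simp only [h8]
          rw [← Finset.mul_sum, h, mul_zero]
      exact h7 _ h6
    omega
  -- the columns
  obtain ⟨t, ht⟩ : ∃ t, finrank ℂ (S.im x₁) = t := ⟨_, rfl⟩
  obtain ⟨f', hf', hfs', hfi'⟩ := exists_fun_fin (Set.range fun k i => ev x₁ (S.B k i)) t ht
  choose V hV using hf'
  obtain ⟨B, hB⟩ : ∃ B : (E → ℂ) → Matrix (Fin S.m) (Fin t) ℂ,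
      ∀ x i a, B x i a = ev x (S.B (V a) i) := ⟨fun x => Matrix.of fun i a => ev x (S.B (V a) i),
      fun _ _ _ => rfl⟩
  have hB1 : (B x₁)ᵀ = Matrix.of f' := by
    ext a i
    rw [Matrix.transpose_apply, hB, Matrix.of_apply, ← hV a]
  have hBI : ∀ x w, B x *ᵥ w ∈ S.im x := by
    intro x w
    have h1 : B x *ᵥ w = ∑ a, w a • fun i => ev x (S.B (V a) i) := by
      funext i
      rw [Matrix.mulVec, dotProduct, Finset.sum_apply]
      refine Finset.sum_congr rfl fun a _ => ?_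
      rw [hB, Pi.smul_apply, smul_eq_mul, mul_comm]
    rw [h1]
    exact Submodule.sum_mem _ fun a _ => Submodule.smul_mem _ _ (Submodule.subset_span ⟨V a, rfl⟩)
  have hd' : finrank ℂ (S.ker x₁) = d + t := by rw [hd, ht]
  -- the minors
  obtain ⟨c, c2, c1, u, hW, hW2, hG⟩ := exists_minors (hv x₁ hx₁) (hAK x₁) (hBI x₁)
    (by rw [hA1]; exact hfi) (by rw [hB1]; exact hfi') hKs hd'
  have hAr : RegM T x₁ A := fun i j => by
    simp only [hA]
    exact Reg.ev _
  have hBr : RegM T x₁ B := fun i j => by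
    simp only [hB]
    exact Reg.ev _
  have hAm : ∀ (L : IntermediateField ℚ ℂ) (x : E → ℂ), (∀ e, x e ∈ L) → MemM L (A x) :=
    fun L x hx i j => by
      rw [hA]
      exact ev_mem hx _
  have hBm : ∀ (L : IntermediateField ℚ ℂ) (x : E → ℂ), (∀ e, x e ∈ L) → MemM L (B x) :=
    fun L x hx i j => by
      rw [hB]
      exact ev_mem hx _
  obtain ⟨g, hg0, hg⟩ := near hx₁ hAr hBr hW hW2 hG
  have hK1 := finrank_K (hAK x₁) hW hKs
  refine ⟨⟨fun x => PP1 (A x) (B x) c c2 c1 u, fun x => PP2 (A x) (B x) c c2 u, g,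
    reg_P1 hx₁ hAr hBr hW hW2 hG, reg_P2 hx₁ hAr hBr hW hW2,
    fun L x hx => mem_P1 (hAm L x hx) (hBm L x hx), fun L x hx => mem_P2 (hAm L x hx) (hBm L x hx),
    hg0, fun x hx hxg => ?_⟩⟩
  obtain ⟨h1, h2, h3⟩ := hg x hx hxg
  have hKx : S.m ≤ finrank ℂ (S.ker x) + s := hKs.trans (Nat.add_le_add_right (hgen x hx).1 _)
  have hIx : finrank ℂ (S.im x) ≤ t := by
    rw [← ht]
    exact (hgen x hx).2
  have hKx' := finrank_K (hAK x) h1 hKx
  have hIx' := finrank_I (hBI x) h2 hIx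
  have hdx : finrank ℂ (S.ker x) = d + t := by omega
  refine ⟨fun y hy => ⟨?_, ?_⟩, triv_point (hv x hx) (hAK x) (hBI x) h1 h2 hKx hIx hdx h3⟩
  · have := (hgen y hy).1
    omega
  · have := (hgen y hy).2
    omega

end Vale.Agent.P002.H85F
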