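import Vale.Agent.P002.H85.Fam.Sub2

/-!
# Subquotients of good families are good: the theorem
-/

namespace Vale.Agent.P002.H85F

open MvPolynomial Matrix Module

variable {E E' G : Type}

theorem Reg.comap {T : Set (E → ℂ)} {x₁ : E → ℂ} {F : (E → ℂ) → ℂ} (h : Reg T x₁ F)
    {T' : Set (E ⊕ E' → ℂ)} (hT : ∀ z ∈ T', z ∘ Sum.inl ∈ T) {z₁ : E ⊕ E' → ℂ}
    (hz : z₁ ∘ Sum.inl = x₁) : Reg T' z₁ fun z => F (z ∘ Sum.inl) := by
  obtain ⟨p, q, hq, hpq⟩ := h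
  refine ⟨rename Sum.inl p, rename Sum.inl q, ?_, fun z hz hzq => ?_⟩
  · rw [eval_rename, hz]
    exact hq
  · rw [eval_rename] at hzq
    simp only [eval_rename]
    exact hpq _ (hT z hz) hzq

theorem RegM.comap {m n : Type} {T : Set (E → ℂ)} {x₁ : E → ℂ} {M : (E → ℂ) → Matrix m n ℂ}
    (h : RegM T x₁ M) {T' : Set (E ⊕ E' → ℂ)} (hT : ∀ z ∈ T', z ∘ Sum.inl ∈ T)
    {z₁ : E ⊕ E' → ℂ} (hz : z₁ ∘ Sum.inl = x₁) : RegM T' z₁ fun z => M (z ∘ Sum.inl) :=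
  fun i j => (h i j).comap hT hz

/-- the dimension of the subquotient -/
theorem finrank_of_proj {m d : ℕ} {K I : Submodule ℂ (Fin m → ℂ)} (hIK : I ≤ K)
    (π : (Fin m → ℂ) →ₗ[ℂ] (Fin d → ℂ)) (h1 : ∀ u, ∃ v ∈ K, π v = u)
    (h2 : ∀ v ∈ K, π v = 0 ↔ v ∈ I) : finrank ℂ K = d + finrank ℂ I := by
  have h3 : Function.Surjective (π.domRestrict K) := fun u => by
    obtain ⟨v, hv, hvu⟩ := h1 u
    exact ⟨⟨v, hv⟩, hvu⟩
  have h4 := LinearMap.finrank_range_add_finrank_ker (π.domRestrict K)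
  rw [LinearMap.range_eq_top.2 h3, finrank_top, finrank_fin_fun] at h4
  have h5 : (LinearMap.ker (π.domRestrict K)).map K.subtype = I := by
    ext v
    constructor
    · rintro ⟨w, hw, rfl⟩
      exact (h2 w w.2).1 hw
    · intro hv
      exact ⟨⟨v, hIK hv⟩, (h2 v (hIK hv)).2 hv, rfl⟩
  have h6 : finrank ℂ (LinearMap.ker (π.domRestrict K)) = finrank ℂ I := by
    rw [← h5]
    exact (LinearEquiv.finrank_eq (Submodule.equivMapOfInjective _ K.injective_subtype _))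
  omega

/-- points near the given one give points of the family of subquotients -/
theorem mem_quot (S : SubData E G) {T : Set (E → ℂ)} {x : E → ℂ} (hx : x ∈ T) {d : ℕ}
    (hv : S.Valid x) (hgen : S.Gen T x) {P1 : Matrix (Fin d) (Fin S.m) ℂ}
    {P2 : Matrix (Fin S.m) (Fin d) ℂ} (h1 : ∀ y, P2 *ᵥ y ∈ S.ker x) (h2 : P1 * P2 = 1)
    (h3 : ∀ v ∈ S.ker x, P1 *ᵥ v = 0 ↔ v ∈ S.im x) {H : Matrix (Fin d) (Fin d) ℂ}
    (hH : H.det ≠ 0) {z : G × Fin d × Fin d → ℂ}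
    (hz : ∀ g, mt z g = H * (P1 * S.act x g * P2) * H⁻¹) : z ∈ S.quot T d := by
  have hHu : IsUnit H.det := isUnit_iff_ne_zero.2 hH
  refine ⟨x, hx, hgen, H.mulVecLin ∘ₗ P1.mulVecLin, fun u => ?_, fun v hvK => ?_,
    fun g v hvK => ?_⟩
  · refine ⟨P2 *ᵥ (H⁻¹ *ᵥ u), h1 _, ?_⟩
    have h4 : P1 *ᵥ (P2 *ᵥ (H⁻¹ *ᵥ u)) = H⁻¹ *ᵥ u := by
      rw [Matrix.mulVec_mulVec (H⁻¹ *ᵥ u) P1 P2, h2, Matrix.one_mulVec]
    rw [LinearMap.comp_apply, Matrix.mulVecLin_apply, Matrix.mulVecLin_apply, h4,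
      Matrix.mulVec_mulVec, Matrix.mul_nonsing_inv _ hHu, Matrix.one_mulVec]
  · rw [LinearMap.comp_apply, Matrix.mulVecLin_apply, Matrix.mulVecLin_apply, ← h3 v hvK]
    constructor
    · intro h
      have h4 := congrArg (fun v => H⁻¹ *ᵥ v) h
      simp only [Matrix.mulVec_mulVec] at h4
      rw [← Matrix.mul_assoc, Matrix.nonsing_inv_mul _ hHu, Matrix.one_mul,
        Matrix.mulVec_zero] at h4
      exact h4
    · intro h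
      rw [h, Matrix.mulVec_zero]
  · have h4 : v - P2 *ᵥ (P1 *ᵥ v) ∈ S.im x := by
      rw [← h3 _ ((S.ker x).sub_mem hvK (h1 _)), Matrix.mulVec_sub, Matrix.mulVec_mulVec,
        Matrix.mulVec_mulVec, h2, Matrix.one_mul, sub_self]
    have h5 : P1 *ᵥ (S.act x g *ᵥ v) = P1 *ᵥ (S.act x g *ᵥ (P2 *ᵥ (P1 *ᵥ v))) := by
      rw [← sub_eq_zero, ← Matrix.mulVec_sub, ← Matrix.mulVec_sub]
      have h6 := (hv.2 g).2 _ h4
      exact (h3 _ (hv.1 h6)).2 h6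
    rw [LinearMap.comp_apply, LinearMap.comp_apply, Matrix.mulVecLin_apply,
      Matrix.mulVecLin_apply, Matrix.mulVecLin_apply, Matrix.mulVecLin_apply, h5, hz]
    simp only [Matrix.mulVec_mulVec]
    congr 1
    have h7 : H * (P1 * S.act x g * P2) * H⁻¹ * (H * P1) =
        H * (P1 * S.act x g * P2) * (H⁻¹ * H) * P1 := by
      simp only [Matrix.mul_assoc]
    rw [h7, Matrix.nonsing_inv_mul _ hHu]
    simp only [Matrix.mul_assoc, Matrix.mul_one]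

/-- every point of the family of subquotients has this form -/
theorem exists_conj (S : SubData E G) {x : E → ℂ} {d : ℕ}
    (hv : S.Valid x) {P1 : Matrix (Fin d) (Fin S.m) ℂ}
    {P2 : Matrix (Fin S.m) (Fin d) ℂ} (h1 : ∀ y, P2 *ᵥ y ∈ S.ker x) (h2 : P1 * P2 = 1)
    (h3 : ∀ v ∈ S.ker x, P1 *ᵥ v = 0 ↔ v ∈ S.im x) {z : G × Fin d × Fin d → ℂ}
    (π : (Fin S.m → ℂ) →ₗ[ℂ] (Fin d → ℂ)) (hs : ∀ u, ∃ v ∈ S.ker x, π v = u)
    (hk : ∀ v ∈ S.ker x, π v = 0 ↔ v ∈ S.im x)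
    (ha : ∀ g, ∀ v ∈ S.ker x, π (S.act x g *ᵥ v) = mt z g *ᵥ π v) :
    ∃ H : Matrix (Fin d) (Fin d) ℂ, H.det ≠ 0 ∧
      ∀ g, mt z g = H * (P1 * S.act x g * P2) * H⁻¹ := by
  obtain ⟨H, hH⟩ : ∃ H : Matrix (Fin d) (Fin d) ℂ, ∀ y, H *ᵥ y = π (P2 *ᵥ y) :=
    ⟨LinearMap.toMatrix' (π ∘ₗ P2.mulVecLin), fun y => by
      rw [LinearMap.toMatrix'_mulVec, LinearMap.comp_apply, Matrix.mulVecLin_apply]⟩
  have hπ : ∀ v ∈ S.ker x, π v = H *ᵥ (P1 *ᵥ v) := by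
    intro v hvK
    have h4 : v - P2 *ᵥ (P1 *ᵥ v) ∈ S.im x := by
      rw [← h3 _ ((S.ker x).sub_mem hvK (h1 _)), Matrix.mulVec_sub, Matrix.mulVec_mulVec,
        Matrix.mulVec_mulVec, h2, Matrix.one_mul, sub_self]
    have h5 := (hk _ ((S.ker x).sub_mem hvK (h1 _))).2 h4
    rw [map_sub, sub_eq_zero] at h5
    rw [h5, hH]
  have hHs : Function.Surjective H.mulVecLin := fun u => by
    obtain ⟨v, hv', hvu⟩ := hs u
    exact ⟨P1 *ᵥ v, by rw [Matrix.mulVecLin_apply, ← hπ v hv', hvu]⟩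
  have hHd : IsUnit H.det := by
    rw [← Matrix.isUnit_iff_isUnit_det, ← Matrix.mulVec_surjective_iff_isUnit]
    exact hHs
  refine ⟨H, hHd.ne_zero, fun g => ?_⟩
  refine Matrix.mulVec_injective (funext fun y => ?_)
  have h4 := ha g (P2 *ᵥ (H⁻¹ *ᵥ y)) (h1 _)
  have h5 : π (P2 *ᵥ (H⁻¹ *ᵥ y)) = y := by
    rw [← hH, Matrix.mulVec_mulVec, Matrix.mul_nonsing_inv _ hHd, Matrix.one_mulVec]
  rw [h5, hπ _ ((hv.2 g).1 _ (h1 _))] at h4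
  rw [← h4]
  simp only [Matrix.mulVec_mulVec, Matrix.mul_assoc]

/-- **Subquotients of good families are good.** -/
theorem Good.sub {T : Set (E → ℂ)} (hT : Good T) (S : SubData E G) (hv : ∀ x ∈ T, S.Valid x)
    (d : ℕ) : Good (S.quot T d) := by
  classical
  obtain ⟨L, hL, hd⟩ := hT.prod (good_univ (Fin d × Fin d))
  obtain ⟨T', hT'⟩ : ∃ T' : Set (E ⊕ (Fin d × Fin d) → ℂ), T' = {z | z ∘ Sum.inl ∈ T ∧
    z ∘ Sum.inr ∈ (Set.univ : Set (Fin d × Fin d → ℂ))} := ⟨_, rfl⟩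
  rw [← hT'] at hd
  have hTl : ∀ z ∈ T', z ∘ Sum.inl ∈ T := fun z hz => by
    rw [hT'] at hz
    exact hz.1
  refine ⟨L, hL, fun f hf => ?_⟩
  rintro z₁ ⟨x₁, hx₁, hgen, π, hs, hk, ha⟩
  obtain ⟨C⟩ := exists_chart S (fun x hx => (hv x hx).1) hx₁ hgen
    (finrank_of_proj (hv x₁ hx₁).1 π hs hk)
  obtain ⟨-, h1, h2, h3⟩ := C.near x₁ hx₁ C.g0
  obtain ⟨H₁, hH₁, hz₁⟩ := exists_conj S (hv x₁ hx₁) h1 h2 h3 π hs hk ha
  obtain ⟨w₁, hw₁, hw₁'⟩ : ∃ w₁ : E ⊕ (Fin d × Fin d) → ℂ, w₁ ∘ Sum.inl = x₁ ∧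
      ∀ i j, w₁ (Sum.inr (i, j)) = H₁ i j :=
    ⟨Sum.elim x₁ fun p => H₁ p.1 p.2, Sum.elim_comp_inl _ _, fun _ _ => rfl⟩
  have hw₁T : w₁ ∈ T' := by
    rw [hT']
    exact ⟨by rw [hw₁]; exact hx₁, trivial⟩
  -- the conjugating matrix
  obtain ⟨H, hH⟩ : ∃ H : (E ⊕ (Fin d × Fin d) → ℂ) → Matrix (Fin d) (Fin d) ℂ,
      ∀ w i j, H w i j = w (Sum.inr (i, j)) := ⟨fun w => Matrix.of fun i j => w (Sum.inr (i, j)),
      fun _ _ _ => rfl⟩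
  have hHw₁ : H w₁ = H₁ := by
    ext i j
    rw [hH, hw₁']
  have hHr : RegM T' w₁ H := fun i j => by
    simp only [hH]
    exact Reg.coord _
  have hHdet : (H w₁).det ≠ 0 := by rw [hHw₁]; exact hH₁
  -- the point of the family
  obtain ⟨Z, hZ⟩ : ∃ Z : (E ⊕ (Fin d × Fin d) → ℂ) → G × Fin d × Fin d → ℂ,
      ∀ w e, Z w e = (H w * (C.P1 (w ∘ Sum.inl) * S.act (w ∘ Sum.inl) e.1 *
        C.P2 (w ∘ Sum.inl)) * (H w)⁻¹) e.2.1 e.2.2 := ⟨_, fun _ _ => rfl⟩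
  have hZm : ∀ w g, mt (Z w) g = H w * (C.P1 (w ∘ Sum.inl) * S.act (w ∘ Sum.inl) g *
        C.P2 (w ∘ Sum.inl)) * (H w)⁻¹ := by
    intro w g
    ext i j
    rw [mt, Matrix.of_apply, hZ]
  have hactr : ∀ g, RegM T x₁ fun x => S.act x g := fun g i j => Reg.ev _
  have hZr : ∀ e, Reg T' w₁ fun w => Z w e := by
    intro e
    simp only [hZ]
    exact ((hHr.mul (((C.reg1.comap hTl hw₁).mul ((hactr e.1).comap hTl hw₁)).mul
      (C.reg2.comap hTl hw₁))).mul (hHr.inv hw₁T hHdet)) _ _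
  have hZ₁ : Z w₁ = z₁ := by
    funext e
    rw [hZ, hw₁, hHw₁, ← hz₁]
    rfl
  have hF := Reg.aeval f hZr
  have hfin := Reg.vanish hd (fun _ h => h.1) hw₁T hF ?_
  · simp only [hZ₁] at hfin
    exact hfin
  obtain ⟨g', hg', hg''⟩ := (Reg.det hHr).ne_zero hw₁T hHdet
  refine ⟨rename Sum.inl C.g * g', ?_, fun w hw hwg => ?_⟩
  · rw [map_mul, eval_rename, hw₁]
    exact mul_ne_zero C.g0 hg'
  rw [map_mul, eval_rename] at hwg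
  have hwT := hTl w hw.1
  obtain ⟨h4, h5, h6, h7⟩ := C.near _ hwT (left_ne_zero_of_mul hwg)
  refine hf _ ⟨mem_quot S hwT (hv _ hwT) h4 h5 h6 h7
    (hg'' w hw.1 (right_ne_zero_of_mul hwg)) (hZm w), ?_⟩
  -- rationality and denominators
  have hm1 := C.mem1 L (w ∘ Sum.inl) fun e => hw.2.1 _
  have hm2 := C.mem2 L (w ∘ Sum.inl) fun e => hw.2.1 _
  have hmH : MemM L (H w) := fun i j => by
    rw [hH]
    exact hw.2.1 _
  have hma : ∀ g, MemM L (S.act (w ∘ Sum.inl) g) := fun g i j => ev_mem (fun e => hw.2.1 _) _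
  obtain ⟨N₀, hN₀, hN₀'⟩ := hw.2.2
  have hZe : ∀ e, Z w e = ∑ a, ∑ b, (H w * C.P1 (w ∘ Sum.inl)) e.2.1 b *
      S.act (w ∘ Sum.inl) e.1 b a * (C.P2 (w ∘ Sum.inl) * (H w)⁻¹) a e.2.2 := by
    intro e
    rw [hZ]
    have h8 : H w * (C.P1 (w ∘ Sum.inl) * S.act (w ∘ Sum.inl) e.1 *
        C.P2 (w ∘ Sum.inl)) * (H w)⁻¹ = (H w * C.P1 (w ∘ Sum.inl)) *
        S.act (w ∘ Sum.inl) e.1 * (C.P2 (w ∘ Sum.inl) * (H w)⁻¹) := by
      simp only [Matrix.mul_assoc]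
    rw [h8, Matrix.mul_apply]
    refine Finset.sum_congr rfl fun a _ => ?_
    rw [Matrix.mul_apply, Finset.sum_mul]
  have hmem : ∀ e, Z w e ∈ L := by
    intro e
    rw [hZ]
    exact (hmH.mul ((hm1.mul (hma e.1)).mul hm2)).mul hmH.inv _ _
  obtain ⟨N₁, hN₁, hN₁'⟩ := exists_den
    (fun p : Fin d × Fin S.m => (H w * C.P1 (w ∘ Sum.inl)) p.1 p.2) (L := L)
    fun p => (hmH.mul hm1) _ _
  obtain ⟨N₂, hN₂, hN₂'⟩ := exists_den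
    (fun p : Fin S.m × Fin d => (C.P2 (w ∘ Sum.inl) * (H w)⁻¹) p.1 p.2) (L := L)
    fun p => (hm2.mul hmH.inv) _ _
  refine ⟨hmem, N₁ * N₀ ^ S.D * N₂, mul_ne_zero (mul_ne_zero hN₁ (pow_ne_zero _ hN₀)) hN₂,
    fun e => ?_⟩
  change IsIntegral ℤ (((N₁ * N₀ ^ S.D * N₂ : ℕ) : ℂ) * Z w e)
  rw [hZe, Finset.mul_sum]
  refine IsIntegral.sum _ fun a _ => ?_
  rw [Finset.mul_sum]
  refine IsIntegral.sum _ fun b _ => ?_
  have h9 : ((N₁ * N₀ ^ S.D * N₂ : ℕ) : ℂ) * ((H w * C.P1 (w ∘ Sum.inl)) e.2.1 b *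
      S.act (w ∘ Sum.inl) e.1 b a * (C.P2 (w ∘ Sum.inl) * (H w)⁻¹) a e.2.2) =
      ((N₁ : ℂ) * (H w * C.P1 (w ∘ Sum.inl)) e.2.1 b) *
      ((N₀ : ℂ) ^ S.D * S.act (w ∘ Sum.inl) e.1 b a) *
      ((N₂ : ℂ) * (C.P2 (w ∘ Sum.inl) * (H w)⁻¹) a e.2.2) := by
    rw [Nat.cast_mul, Nat.cast_mul, Nat.cast_pow]
    ring
  rw [h9]
  exact ((hN₁' (e.2.1, b)).mul (ev_integral (fun e => hN₀' _) _ (S.hD _ _ _))).mul
    (hN₂' (a, e.2.2))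

end Vale.Agent.P002.H85F
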